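import Vale.Agent.P042.H121.CubeThm
import Vale.Agent.P042.H322.Rep4
import Vale.Agent.P042.H587.T4
import Vale.Agent.P042.H685.Pin

/-!
# P042, H2 (window): Theorem H

The energy of level `e` of a (pinned, unnormalised) measure is at most
`K ^ 2 * (1440 G R ^ 2 P ^ (1 - 1 / (12 C1))) ^ e`: a gain `P ^ (- c)` per leg over the level
inequality.
-/

set_option autoImplicit false
set_option linter.unusedSectionVars false

namespace Vale.Agent.P042.H121

open Finset Vale.Agent.P042.H685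
open Vale.Agent.P042.H779.Ab (pw Loc)

variable {ι : Type*} [Fintype ι] [DecidableEq ι] {V : ι → Type*} [∀ i, Fintype (V i)]
  [∀ i, DecidableEq (V i)]

lemma piecewise_ov {g : Finset ι → (∀ i, V i) → ℝ} (hg : ∀ C, Loc C (g C)) {S E : Finset ι}
    (hSE : Disjoint E S) (x u : ∀ i, V i) :
    hh g (S ∪ E) (E.piecewise x u) = hh g (S ∪ E) (ov S u x) := by
  refine hh_loc hg (S ∪ E) _ _ fun i hi => ?_
  by_cases hS : i ∈ S
  · have hE : i ∉ E := fun h => (Finset.disjoint_left.1 hSE h) hS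
    rw [Finset.piecewise_eq_of_notMem _ _ _ hE, ov_mem hS]
  · have hE : i ∈ E := (Finset.mem_union.1 hi).resolve_left hS
    rw [Finset.piecewise_eq_of_mem _ _ _ hE, ov_notMem hS]

/-- **THEOREM H** -/
theorem thmH {w : ∀ i, V i → ℝ} {g : Finset ι → (∀ i, V i) → ℝ} {m : ℝ} (F : PFam w g m)
    (I : Finset ι) {e q : ℕ} (he : 1 ≤ e) (hq : Even q) (hI : 1 ≤ I.card)
    {P R R0 K G C1 : ℝ} (hP : 1 ≤ P) (hR0 : 1 ≤ R0) (hR : 2 * R0 ≤ R) (hG : 1 ≤ G) (hC : 1 ≤ C1)
    (hK : 0 < K) (hmK : m ≤ K) (heG : (e : ℝ) ≤ G)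
    (hlo : Real.log (Fintype.card (Σ i, V i)) ≤ G) (hlk : Real.log (3 * I.card) ≤ G)
    (hOm : (Fintype.card (Σ i, V i) : ℝ) ≤ P ^ (2 * C1)) (hGP : 16 * G ^ 2 ≤ P ^ (2 / 3 : ℝ))
    (hql : P ^ (2 / 3 : ℝ) ≤ 2 * (q : ℝ)) (hqu : 2 * (q : ℝ) ≤ 8 * P ^ (2 / 3 : ℝ))
    (LI : ∀ l ≤ q * e, WW w (gr g I) l ≤ K ^ 2 * ((R * P) ^ l / (l.factorial : ℝ)))
    (PH : ∀ S ⊆ I, ∀ d, S.card + d ≤ e → ∀ u : ∀ i, V i,
      WW w (gp (gr g I) S u) d ≤ (K * R0 ^ S.card) ^ 2 * (R * P) ^ d)
    (INJ : ∀ S ⊆ I, S.card ≤ e → ∀ u : ∀ i, V i, ∀ f : ∀ i, V i → ℂ, (∀ i, i ∉ I → f i = 0) →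
      ∑ i, ∑ b, w i b * ‖f i b‖ ^ 2 ≤ 1 →
      ‖∑ E ∈ powersetCard (e - S.card) (I \ S), ∑ x, (pw w x : ℂ) *
        ((hh g (S ∪ E) (ov S u x) : ℂ) * ∏ i ∈ E, f i (x i))‖ ≤ K * R ^ e) :
    WW w (gr g I) e ≤ K ^ 2 * (1440 * G * R ^ 2 * P ^ (1 - 1 / (12 * C1))) ^ e := by
  classical
  have hR1 : 1 ≤ R := by linarith
  have hRP : 0 ≤ R * P := by nlinarith
  have FI := F.restr I
  have hgI : ∀ C, Loc C (gr g I C) := FI.loc
  -- the size of q
  have h16 : (16 : ℝ) ≤ P ^ (2 / 3 : ℝ) := by nlinarith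
  have hq8 : (8 : ℝ) ≤ q := by linarith
  have hq8' : 8 ≤ q := by exact_mod_cast hq8
  have hq0 : q ≠ 0 := by omega
  have h4 : 4 ≤ 2 * q := by omega
  have hNN : (Vale.Agent.P042.H322.NN V : ℝ) = Fintype.card (Σ i, V i) := rfl
  have hOm1 : (1 : ℝ) ≤ Fintype.card (Σ i, V i) := by
    obtain ⟨i, hi⟩ := Finset.card_pos.1 (by omega : 0 < I.card)
    have hne : Nonempty (V i) := by
      by_contra hc
      rw [not_nonempty_iff] at hc
      have := F.w_sum i
      simp at this
    have : Nonempty (Σ i, V i) := ⟨⟨i, hne.some⟩⟩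
    exact_mod_cast Fintype.card_pos
  -- the family
  set T : Finset ι → (∀ i, V i) → ℝ := fun E x => if E.card = e then hh (gr g I) E x else 0
    with hTdef
  have hTsum : ∀ x, ∑ E, T E x = ∑ B with B.card = e, hh (gr g I) B x := fun x => by
    rw [Finset.sum_filter]
  have hloc : ∀ E i, i ∉ E → ∀ x a, T E (Function.update x i a) = T E x := by
    intro E i hi x a
    simp only [hTdef]
    split_ifs
    · exact (hh_loc hgI E).indep hi x a
    · rfl
  have hcen : ∀ E i, i ∈ E → ∀ x, ∑ a, w i a * T E (Function.update x i a) = 0 := by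
    intro E i hi x
    simp only [hTdef]
    split_ifs
    · exact FI.hh_deg hi x
    · simp
  have hTI : ∀ E, ¬ (E ⊆ I ∧ E.card = e) → ∀ x, T E x = 0 := by
    intro E hE x
    simp only [hTdef]
    split_ifs with h
    · rw [hh_gr]
      rw [if_neg fun h2 => hE ⟨h2, h⟩]
    · rfl
  have hTval : ∀ S ⊆ I, S.card ≤ e → ∀ u x : ∀ i, V i, ∀ E : Finset ι,
      (Disjoint E S ∧ S ∪ E ⊆ I ∧ E.card = e - S.card) →
      T (S ∪ E) (E.piecewise x u) = hh g (S ∪ E) (ov S u x) := by
    intro S hS hSe u x E hE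
    have hcard : (S ∪ E).card = e := by
      rw [Finset.card_union_of_disjoint hE.1.symm, hE.2.2]
      omega
    simp only [hTdef]
    rw [if_pos hcard, hh_gr, if_pos hE.2.1, piecewise_ov F.loc hE.1]
  set X2 : ℕ → ℝ := fun a => K * (2 * R0) ^ a * √(R * P) ^ (e - a) with hX2
  set J : ℕ → ℝ := fun _ => K * R ^ e with hJ
  set Lam : ℕ → ℝ := fun a =>
    8 * ((2 * q : ℕ) * (e - a : ℕ) / 2 * Real.log (Fintype.card (Σ i, V i)) + (e - a : ℕ) + 1)
    with hLam
  set Z : ℕ → ℝ := fun a => ∑ r ∈ range (e - a + 1),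
    min (√((e - a).choose r) * √(Lam a) ^ (e - a - r) * (3 ^ (e - a) * X2 a))
      ((3 ^ (e - a) * J a) * 2 ^ (e - a) * (2 * √(Fintype.card (Σ i, V i))) ^ r *
        √(Lam a) ^ (e - a - r)) with hZ
  have hX20 : ∀ a, 0 ≤ X2 a := fun a => by positivity
  have hJ0 : ∀ a, 0 ≤ J a := fun a => by positivity
  have hlog0 : 0 ≤ Real.log (Fintype.card (Σ i, V i)) := Real.log_nonneg hOm1
  have hLam0 : ∀ a, 0 ≤ Lam a := fun a => by positivity
  have hZ0 : ∀ a, 0 ≤ Z a := fun a =>
    Finset.sum_nonneg fun r _ => le_min (by have := hX20 a; positivity)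
      (by have := hJ0 a; positivity)
  have hmom := Vale.Agent.P042.H322.mom_le (w := w) (T := T) F.w_nonneg F.w_sum hloc hcen
    (Q := 2 * q) (even_two_mul q) h4 (e := e) (I := I) hTI Z X2 J hJ0
    (by
      intro S hS hSe u
      have h1 : ∑ E : Finset ι with (Disjoint E S ∧ S ∪ E ⊆ I ∧ E.card = e - S.card),
          ∑ x, Vale.Agent.P042.H322.pw w x * T (S ∪ E) (E.piecewise x u) ^ 2 ≤
          WF w (gr g I) S u (e - S.card) := by
        unfold WF
        have h2 : ∑ E : Finset ι with (Disjoint E S ∧ S ∪ E ⊆ I ∧ E.card = e - S.card),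
            ∑ x, Vale.Agent.P042.H322.pw w x * T (S ∪ E) (E.piecewise x u) ^ 2 =
            ∑ E : Finset ι with (Disjoint E S ∧ S ∪ E ⊆ I ∧ E.card = e - S.card),
            ∑ x, pw w x * hh (gr g I) (S ∪ E) (ov S u x) ^ 2 := by
          refine Finset.sum_congr rfl fun E hE => Finset.sum_congr rfl fun x _ => ?_
          have hE' := (Finset.mem_filter.1 hE).2
          rw [hTval S hS hSe u x E hE', hh_gr, if_pos hE'.2.1]
          rfl
        rw [h2]
        refine Finset.sum_le_sum_of_subset_of_nonneg ?_ fun D _ _ =>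
          Finset.sum_nonneg fun x _ => mul_nonneg (FI.dfam.pw_nonneg x) (sq_nonneg _)
        intro E hE
        have hE' := (Finset.mem_filter.1 hE).2
        exact Finset.mem_filter.2 ⟨Finset.mem_univ _, hE'.2.2, hE'.1.symm⟩
      refine h1.trans ((FI.WF_le S u _).trans ?_)
      have h3 : ∀ A' ∈ S.powerset, WW w (gp (gr g I) A' u) (e - S.card) ≤
          (K * R0 ^ S.card) ^ 2 * (R * P) ^ (e - S.card) := by
        intro A' hA'
        have hA := Finset.mem_powerset.1 hA'
        have hc := Finset.card_le_card hA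
        refine (PH A' (hA.trans hS) (e - S.card) (by omega) u).trans ?_
        refine mul_le_mul_of_nonneg_right ?_ (by positivity)
        refine pow_le_pow_left₀ (by positivity) ?_ 2
        exact mul_le_mul_of_nonneg_left (pow_le_pow_right₀ hR0 hc) hK.le
      refine (mul_le_mul_of_nonneg_left (Finset.sum_le_sum h3) (by positivity)).trans
        (le_of_eq ?_)
      rw [Finset.sum_const, Finset.card_powerset, nsmul_eq_mul]
      simp only [hX2]
      push_cast
      rw [mul_pow (K * (2 * R0) ^ S.card), ← pow_mul (√(R * P)), mul_comm (e - S.card) 2,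
        pow_mul (√(R * P)), Real.sq_sqrt hRP, mul_pow 2 R0]
      ring)
    (by
      intro S hS hSe u z hz
      set f : ∀ i, V i → ℂ := fun i => if i ∈ I then z i else 0 with hf
      have hfz : ∀ i, i ∉ I → f i = 0 := fun i hi => by simp only [hf]; rw [if_neg hi]
      have hf1 : ∑ i, ∑ b, w i b * ‖f i b‖ ^ 2 ≤ 1 := by
        refine le_trans ?_ hz
        refine Finset.sum_le_sum fun i _ => Finset.sum_le_sum fun b _ => ?_
        refine mul_le_mul_of_nonneg_left ?_ (F.w_nonneg i b)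
        simp only [hf]
        split_ifs
        · exact le_rfl
        · simp
      have h1 := INJ S hS hSe u f hfz hf1
      refine le_trans (le_of_eq ?_) h1
      congr 1
      have hset : (univ : Finset (Finset ι)).filter
          (fun E => Disjoint E S ∧ S ∪ E ⊆ I ∧ E.card = e - S.card) =
          powersetCard (e - S.card) (I \ S) := by
        ext E
        simp only [Finset.mem_filter, Finset.mem_univ, true_and, Finset.mem_powersetCard]
        constructor
        · rintro ⟨h1, h2, h3⟩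
          refine ⟨fun i hi => Finset.mem_sdiff.2 ⟨h2 (Finset.mem_union_right _ hi), ?_⟩, h3⟩
          exact Finset.disjoint_left.1 h1 hi
        · rintro ⟨h1, h3⟩
          refine ⟨?_, ?_, h3⟩
          · rw [Finset.disjoint_left]
            intro i hi
            exact (Finset.mem_sdiff.1 (h1 hi)).2
          · exact Finset.union_subset hS (h1.trans Finset.sdiff_subset)
      rw [hset]
      refine Finset.sum_congr rfl fun E hE => Finset.sum_congr rfl fun x _ => ?_
      have hE' : Disjoint E S ∧ S ∪ E ⊆ I ∧ E.card = e - S.card := by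
        have := hset ▸ hE
        exact (Finset.mem_filter.1 this).2
      rw [hTval S hS hSe u x E hE', mul_assoc]
      have h5 : ∏ j ∈ E, z j (x j) = ∏ i ∈ E, f i (x i) := by
        refine Finset.prod_congr rfl fun i hi => ?_
        have hiI : i ∈ I := hE'.2.1 (Finset.mem_union_right _ hi)
        simp only [hf]
        rw [if_pos hiI]
      rw [h5]
      rfl)
    (by
      intro a ha c hc hcC hcJ
      have h1 := cube (N := Vale.Agent.P042.H322.NN V) (n := e - a) (Q := 2 * q) (by omega) hc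
        (C := 3 ^ (e - a) * X2 a) (by have := hX20 a; positivity) hcC
        (J := 3 ^ (e - a) * J a) (by have := hJ0 a; positivity) hcJ (L := √(Lam a))
        (Real.sqrt_nonneg _) (by
          rw [Real.sq_sqrt (hLam0 a), hNN])
      rw [hNN] at h1
      refine le_trans (le_of_eq ?_) h1
      refine Finset.sum_congr rfl fun s _ => ?_
      rw [(even_two_mul q).pow_abs]
      rfl)
  have hMom0 : 0 ≤ ∑ x, pw w x * (∑ B with B.card = e, hh (gr g I) B x) ^ (2 * q) :=
    Finset.sum_nonneg fun x _ => mul_nonneg (FI.dfam.pw_nonneg x) ((even_two_mul q).pow_nonneg _)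
  have hT1 := FI.T1 hq hq0 e
  refine Vale.Agent.P042.H587.t4_fin (W := WW w (gr g I)) (Lam := Lam)
    (X2 := fun a => 3 ^ (e - a) * X2 a) (J := fun a => 3 ^ (e - a) * J a) (Z := Z)
    (Om := Fintype.card (Σ i, V i)) he hI hP hR1 hG hC hOm1 hK heG hlo hlk hOm hGP
    hql hqu hMom0 ?_ LI ?_ (fun a _ => hZ0 a) ?_ ?_ ?_ ?_ ?_
  · -- T1
    refine hT1.trans ?_
    have hm0 : 0 ≤ m := by
      rcases isEmpty_or_nonempty (∀ i, V i) with hE | hE
      · exfalso
        have := F.dfam.pw_sum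
        simp at this
      · exact F.mass_nonneg
    have h1 : m ^ (2 * (q - 1)) ≤ K ^ (2 * (q - 1)) := pow_le_pow_left₀ hm0 hmK _
    have h2 : 0 ≤ ∑ l ∈ range (q * e + 1), WW w (gr g I) l :=
      Finset.sum_nonneg fun l _ => Finset.sum_nonneg fun B _ => FI.dfam.nr_nonneg B
    exact mul_le_mul_of_nonneg_right (mul_le_mul_of_nonneg_right h1 h2) hMom0
  · -- T2
    refine le_trans (le_of_eq ?_) (hmom.trans (le_of_eq ?_))
    · refine Finset.sum_congr rfl fun x _ => ?_
      rw [← hTsum]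
      rfl
    · push_cast
      rfl
  · -- T3
    intro a _
    exact le_rfl
  · -- Lam
    intro a ha
    simp only [hLam]
    have h1 : ((e - a : ℕ) : ℝ) ≤ G := by
      refine le_trans ?_ heG
      exact_mod_cast Nat.sub_le e a
    have h0 : (0 : ℝ) ≤ ((e - a : ℕ) : ℝ) := Nat.cast_nonneg _
    have h2 : ((e - a : ℕ) : ℝ) * Real.log (Fintype.card (Σ i, V i)) ≤ G * G :=
      mul_le_mul h1 hlo hlog0 (by linarith)
    have h3 : ((2 * q : ℕ) : ℝ) * ((e - a : ℕ) : ℝ) / 2 * Real.log (Fintype.card (Σ i, V i)) =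
        q * (((e - a : ℕ) : ℝ) * Real.log (Fintype.card (Σ i, V i))) := by
      push_cast; ring
    rw [h3]
    have h4 : (q : ℝ) * (((e - a : ℕ) : ℝ) * Real.log (Fintype.card (Σ i, V i))) ≤ q * (G * G) :=
      mul_le_mul_of_nonneg_left h2 (by linarith)
    have h5 : G ≤ G * G := by nlinarith
    nlinarith
  · intro a _
    have := hX20 a
    positivity
  · intro a ha
    simp only [hX2]
    have h1 : (2 * R0) ^ a ≤ R ^ a := pow_le_pow_left₀ (by positivity) hR a
    have h2 : 0 ≤ √(R * P) ^ (e - a) := by positivity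
    calc 3 ^ (e - a) * (K * (2 * R0) ^ a * √(R * P) ^ (e - a))
        ≤ 3 ^ (e - a) * (K * R ^ a * √(R * P) ^ (e - a)) := by gcongr
      _ = _ := by ring
  · intro a _
    simp only [hJ]
    exact le_of_eq (by ring)

end Vale.Agent.P042.H121
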