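import Vale.Agent.P042.H121.Drift

/-!
# P042, H2 (window): the cube theorem

Moments of order `Q` of a homogeneous polynomial of degree `n` in `N` independent signs:
interpolation between the Hilbert-Schmidt norm (many noise legs) and the injective norm (few).
-/

set_option autoImplicit false

namespace Vale.Agent.P042.H121

open Finset

/-! ### moments of the drift -/

lemma drift_exp {N : ℕ} {ρ : (Fin N → Bool) → ℝ} (hρ : ∀ ε, 0 ≤ ρ ε) {D : ℝ}
    (hK : ∀ ε, ρ ε ≤ Real.exp D / 2 ^ N) {v : (Fin N → Bool) → ℝ}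
    (hH : ∑ ε, √(ρ ε) * Real.exp (v ε / 8) ≤ √2 ^ N) :
    ∑ ε, ρ ε * Real.exp (v ε / 8) ≤ Real.exp (D / 2) := by
  have h2 : (0 : ℝ) < √2 ^ N := by positivity
  have h1 : ∀ ε, ρ ε * Real.exp (v ε / 8) ≤
      Real.exp (D / 2) / √2 ^ N * (√(ρ ε) * Real.exp (v ε / 8)) := by
    intro ε
    have h3 : √(ρ ε) ≤ Real.exp (D / 2) / √2 ^ N := by
      rw [Real.sqrt_le_left (by positivity)]
      refine (hK ε).trans (le_of_eq ?_)
      rw [div_pow, ← Real.exp_nat_mul, ← pow_mul, mul_comm N 2, pow_mul,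
        Real.sq_sqrt (by norm_num : (0 : ℝ) ≤ 2)]
      congr 2
      push_cast
      ring
    have h4 : ρ ε = √(ρ ε) * √(ρ ε) := (Real.mul_self_sqrt (hρ ε)).symm
    calc ρ ε * Real.exp (v ε / 8) = √(ρ ε) * (√(ρ ε) * Real.exp (v ε / 8)) := by
          rw [← mul_assoc, ← h4]
      _ ≤ _ := mul_le_mul_of_nonneg_right h3 (by positivity)
  calc ∑ ε, ρ ε * Real.exp (v ε / 8)
      ≤ ∑ ε, Real.exp (D / 2) / √2 ^ N * (√(ρ ε) * Real.exp (v ε / 8)) :=
        Finset.sum_le_sum fun ε _ => h1 ε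
    _ = Real.exp (D / 2) / √2 ^ N * ∑ ε, √(ρ ε) * Real.exp (v ε / 8) := by rw [Finset.mul_sum]
    _ ≤ Real.exp (D / 2) / √2 ^ N * √2 ^ N := mul_le_mul_of_nonneg_left hH (by positivity)
    _ = Real.exp (D / 2) := div_mul_cancel₀ _ h2.ne'

lemma drift_moment {N : ℕ} {ρ : (Fin N → Bool) → ℝ} (hρ : ∀ ε, 0 ≤ ρ ε) (hs : ∑ ε, ρ ε = 1)
    {D : ℝ} (hD : 0 ≤ D) {v : (Fin N → Bool) → ℝ} (hv : ∀ ε, 0 ≤ v ε)
    (hE : ∑ ε, ρ ε * Real.exp (v ε / 8) ≤ Real.exp (D / 2)) (j : ℕ) :
    ∑ ε, ρ ε * (v ε + 1) ^ j ≤ (8 * (D + j + 1)) ^ j := by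
  set a : ℝ := D / 2 + 1 / 8 with ha
  set B : ℝ := D + j + 1 with hB
  have hj : (0 : ℝ) ≤ j := Nat.cast_nonneg j
  have hB0 : 0 < B := by positivity
  set θ : ℝ := j / B with hθ
  have hθ0 : 0 ≤ θ := by positivity
  have hθ1 : θ ≤ 1 := (div_le_one hB0).2 (by rw [hB]; linarith)
  have key : ∀ ε, (v ε + 1) ^ j ≤ (8 * B) ^ j * (1 - θ + θ * Real.exp (v ε / 8 - D / 2)) := by
    intro ε
    set t : ℝ := (v ε + 1) / 8 with ht
    have ht0 : 0 ≤ t := by have := hv ε; positivity
    have h1 : (v ε + 1) ^ j = (8 * B) ^ j * (t / B) ^ j := by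
      rw [← mul_pow]; congr 1; field_simp; rw [ht]; ring
    rw [h1]
    refine mul_le_mul_of_nonneg_left ?_ (by positivity)
    have h2 : t / B ≤ Real.exp (t / B - 1) := by
      have := Real.add_one_le_exp (t / B - 1); linarith
    have h3 : (t / B) ^ j ≤ Real.exp (j * (t / B - 1)) := by
      rw [Real.exp_nat_mul]
      exact pow_le_pow_left₀ (by positivity) h2 j
    have h4 : (j : ℝ) * (t / B - 1) ≤ θ * (t - a) := by
      have h5 : θ * a ≤ j := by
        rw [hθ, div_mul_eq_mul_div, div_le_iff₀ hB0]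
        refine mul_le_mul_of_nonneg_left ?_ hj
        rw [ha, hB]; linarith
      have h6 : (j : ℝ) * (t / B) = θ * t := by rw [hθ]; ring
      rw [mul_sub, mul_sub, h6]
      linarith
    have h5 : Real.exp (θ * (t - a)) ≤ 1 - θ + θ * Real.exp (t - a) := by
      have h6 := (convexOn_exp).2 (Set.mem_univ (0 : ℝ)) (Set.mem_univ (t - a))
        (by linarith : 0 ≤ 1 - θ) hθ0 (by ring)
      simpa using h6
    have h6 : t - a = v ε / 8 - D / 2 := by rw [ht, ha]; ring
    rw [h6] at h5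
    refine h3.trans ((Real.exp_le_exp.2 h4).trans ?_)
    rw [h6]
    exact h5
  calc ∑ ε, ρ ε * (v ε + 1) ^ j
      ≤ ∑ ε, ρ ε * ((8 * B) ^ j * (1 - θ + θ * Real.exp (v ε / 8 - D / 2))) :=
        Finset.sum_le_sum fun ε _ => mul_le_mul_of_nonneg_left (key ε) (hρ ε)
    _ = (8 * B) ^ j * ((1 - θ) * ∑ ε, ρ ε + θ * (Real.exp (-(D / 2)) *
          ∑ ε, ρ ε * Real.exp (v ε / 8))) := by
        rw [Finset.mul_sum, Finset.mul_sum, Finset.mul_sum, ← Finset.sum_add_distrib,
          Finset.mul_sum]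
        refine Finset.sum_congr rfl fun ε _ => ?_
        rw [sub_eq_add_neg (v ε / 8), Real.exp_add]
        ring
    _ ≤ (8 * B) ^ j * 1 := by
        refine mul_le_mul_of_nonneg_left ?_ (by positivity)
        rw [hs, mul_one]
        have h1 : Real.exp (-(D / 2)) * ∑ ε, ρ ε * Real.exp (v ε / 8) ≤ 1 := by
          calc Real.exp (-(D / 2)) * ∑ ε, ρ ε * Real.exp (v ε / 8)
              ≤ Real.exp (-(D / 2)) * Real.exp (D / 2) :=
                mul_le_mul_of_nonneg_left hE (Real.exp_pos _).le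
            _ = 1 := by rw [← Real.exp_add]; simp
        nlinarith
    _ = (8 * (D + j + 1)) ^ j := by rw [mul_one]

/-! ### elementary symmetric sums -/

lemma esum_le {α : Type*} [DecidableEq α] (s : Finset α) {x : α → ℝ} (hx : ∀ i, 0 ≤ x i) (j : ℕ) :
    ∑ H ∈ powersetCard j s, ∏ i ∈ H, x i ≤ (∑ i ∈ s, x i) ^ j := by
  induction s using Finset.induction_on generalizing j with
  | empty =>
    cases j with
    | zero => simp
    | succ j =>
      rw [Finset.powersetCard_eq_empty.2 (by simp)]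
      simp
  | insert a s ha ih =>
    cases j with
    | zero => simp
    | succ j =>
      rw [Finset.powersetCard_succ_insert ha, Finset.sum_union, Finset.sum_image,
        Finset.sum_insert ha]
      · have h1 : ∑ H ∈ powersetCard j s, ∏ i ∈ insert a H, x i =
            x a * ∑ H ∈ powersetCard j s, ∏ i ∈ H, x i := by
          rw [Finset.mul_sum]
          refine Finset.sum_congr rfl fun H hH => ?_
          rw [Finset.prod_insert fun h => ha ((Finset.mem_powersetCard.1 hH).1 h)]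
        rw [h1]
        have hX : 0 ≤ ∑ i ∈ s, x i := Finset.sum_nonneg fun i _ => hx i
        have h2 := ih (j + 1)
        have h3 := mul_le_mul_of_nonneg_left (ih j) (hx a)
        have h4 : (∑ i ∈ s, x i) ^ j ≤ (x a + ∑ i ∈ s, x i) ^ j :=
          pow_le_pow_left₀ hX (by linarith [hx a]) j
        have h5 := mul_le_mul_of_nonneg_left h4 (add_nonneg (hx a) hX)
        rw [pow_succ' (x a + ∑ i ∈ s, x i)]
        rw [pow_succ'] at h2
        nlinarith
      · intro H hH H' hH' h
        have hH := Finset.mem_coe.1 hH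
        have hH' := Finset.mem_coe.1 hH'
        rw [← Finset.erase_insert (fun h => ha ((Finset.mem_powersetCard.1 hH).1 h)),
          ← Finset.erase_insert (fun h => ha ((Finset.mem_powersetCard.1 hH').1 h)), h]
      · rw [Finset.disjoint_left]
        intro H hH hH'
        obtain ⟨H'', -, rfl⟩ := Finset.mem_image.1 hH'
        exact ha ((Finset.mem_powersetCard.1 hH).1 (Finset.mem_insert_self a _))

/-! ### coefficients of a polynomial bounded on a circle -/

lemma coeff_bound {n m : ℕ} (hm : m ≤ n) (a : ℕ → ℂ) {r K : ℝ} (hr : 0 ≤ r)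
    (h : ∀ t : ℂ, ‖t‖ = r → ‖∑ j ∈ range (n + 1), a j * t ^ j‖ ≤ K) : ‖a m‖ * r ^ m ≤ K := by
  set ζ : ℂ := Complex.exp (2 * Real.pi * Complex.I / ((n + 1 : ℕ) : ℂ)) with hζ
  have hp : IsPrimitiveRoot ζ (n + 1) := Complex.isPrimitiveRoot_exp (n + 1) (Nat.succ_ne_zero n)
  have hζn : ‖ζ‖ = 1 := hp.norm'_eq_one (Nat.succ_ne_zero n)
  have h1 : ∑ k ∈ range (n + 1), (ζ ^ k) ^ (n + 1 - m) *
      ∑ j ∈ range (n + 1), a j * ((r : ℂ) * ζ ^ k) ^ j = (n + 1 : ℕ) * (a m * (r : ℂ) ^ m) := by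
    have h2 : ∑ k ∈ range (n + 1), (ζ ^ k) ^ (n + 1 - m) *
        ∑ j ∈ range (n + 1), a j * ((r : ℂ) * ζ ^ k) ^ j =
        ∑ j ∈ range (n + 1), a j * (r : ℂ) ^ j * ∑ k ∈ range (n + 1), (ζ ^ (n + 1 - m + j)) ^ k := by
      simp_rw [Finset.mul_sum]
      rw [Finset.sum_comm]
      refine Finset.sum_congr rfl fun j _ => Finset.sum_congr rfl fun k _ => ?_
      rw [mul_pow, ← pow_mul, ← pow_mul, ← pow_mul, add_mul, pow_add, mul_comm (n + 1 - m) k,
        mul_comm j k]
      ring
    rw [h2, Finset.sum_eq_single m]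
    · rw [Nat.sub_add_cancel (by omega), hp.pow_eq_one]
      simp
      ring
    · intro j hj hjm
      have hj' := Finset.mem_range.1 hj
      have h3 : ζ ^ (n + 1 - m + j) ≠ 1 := by
        intro h4
        have h5 := hp.dvd_of_pow_eq_one _ h4
        obtain ⟨c, hc⟩ := h5
        have : c = 1 := by
          rcases c with _ | _ | c
          · omega
          · rfl
          · exfalso
            have h6 : (n + 1) * (c + 1 + 1) = (n + 1) * c + 2 * (n + 1) := by ring
            have h7 : 0 ≤ (n + 1) * c := Nat.zero_le _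
            omega
        rw [this] at hc
        omega
      have h4 : (ζ ^ (n + 1 - m + j)) ^ (n + 1) = 1 := by
        rw [← pow_mul, mul_comm, pow_mul, hp.pow_eq_one, one_pow]
      rw [geom_sum_eq h3, h4, sub_self, zero_div, mul_zero]
    · intro h3
      exact absurd (Finset.mem_range.2 (by omega)) h3
  have h2 : ‖((n + 1 : ℕ) : ℂ) * (a m * (r : ℂ) ^ m)‖ ≤ (n + 1 : ℕ) * K := by
    rw [← h1]
    refine (norm_sum_le _ _).trans ?_
    have h3 : ∀ k ∈ range (n + 1), ‖(ζ ^ k) ^ (n + 1 - m) *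
        ∑ j ∈ range (n + 1), a j * ((r : ℂ) * ζ ^ k) ^ j‖ ≤ K := by
      intro k _
      rw [norm_mul, norm_pow, norm_pow, hζn, one_pow, one_pow, one_mul]
      refine h _ ?_
      rw [norm_mul, norm_pow, hζn, one_pow, mul_one, Complex.norm_real, Real.norm_of_nonneg hr]
    refine (Finset.sum_le_sum h3).trans ?_
    simp
  rw [norm_mul, norm_mul, norm_pow, Complex.norm_real, Real.norm_of_nonneg hr,
    Complex.norm_natCast] at h2
  exact le_of_mul_le_mul_left h2 (by positivity)

/-! ### splitting into noise legs and drift legs -/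

/-- the part with `m` noise legs -/
noncomputable def Ym {α : Type*} [Fintype α] [DecidableEq α] (c : Finset α → ℝ) (m : ℕ)
    (ξ h : α → ℝ) : ℝ :=
  ∑ F, c F * ∑ G ∈ powersetCard m F, (∏ i ∈ G, ξ i) * ∏ i ∈ F \ G, h i

lemma sum_superset {α : Type*} [Fintype α] [DecidableEq α] {M : Type*} [AddCommMonoid M]
    (G : Finset α) (f : Finset α → Finset α → M) :
    ∑ F with G ⊆ F, f F (F \ G) = ∑ H with Disjoint G H, f (G ∪ H) H := by
  refine Finset.sum_bij' (fun F _ => F \ G) (fun H _ => G ∪ H) ?_ ?_ ?_ ?_ ?_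
  · intro F _
    simpa using Finset.disjoint_sdiff
  · intro H _
    simp
  · intro F hF
    simp only [Finset.mem_filter, Finset.mem_univ, true_and] at hF
    exact Finset.union_sdiff_of_subset hF
  · intro H hH
    simp only [Finset.mem_filter, Finset.mem_univ, true_and] at hH
    exact Finset.union_sdiff_cancel_left hH
  · intro F hF
    simp only [Finset.mem_filter, Finset.mem_univ, true_and] at hF
    rw [Finset.union_sdiff_of_subset hF]

section
variable {α : Type*} [Fintype α] [DecidableEq α]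

lemma sum_Ym {n : ℕ} {c : Finset α → ℝ} (hc : ∀ F, F.card ≠ n → c F = 0) (ξ h : α → ℝ) :
    ∑ F, c F * ∏ i ∈ F, (ξ i + h i) = ∑ m ∈ range (n + 1), Ym c m ξ h := by
  unfold Ym
  rw [Finset.sum_comm]
  refine Finset.sum_congr rfl fun F _ => ?_
  by_cases hF : F.card = n
  · rw [← Finset.mul_sum, Finset.prod_add, Finset.sum_powerset, hF]
  · simp [hc F hF]

lemma Psi_poly {n : ℕ} {c : Finset α → ℝ} (hc : ∀ F, F.card ≠ n → c F = 0) (ξ h : α → ℝ)
    (t : ℂ) :
    ∑ F, (c F : ℂ) * ∏ i ∈ F, ((h i : ℂ) + t * ξ i) =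
      ∑ m ∈ range (n + 1), (Ym c m ξ h : ℂ) * t ^ m := by
  have h1 : ∀ F : Finset α, (c F : ℂ) * ∏ i ∈ F, ((h i : ℂ) + t * ξ i) =
      ∑ m ∈ range (n + 1), (c F : ℂ) *
        (∑ G ∈ powersetCard m F, (∏ i ∈ G, (ξ i : ℂ)) * ∏ i ∈ F \ G, (h i : ℂ)) * t ^ m := by
    intro F
    by_cases hF : F.card = n
    · have h2 : ∏ i ∈ F, ((h i : ℂ) + t * ξ i) = ∏ i ∈ F, (t * ξ i + (h i : ℂ)) :=
        Finset.prod_congr rfl fun i _ => add_comm _ _
      rw [h2, Finset.prod_add, Finset.sum_powerset, hF, Finset.mul_sum]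
      refine Finset.sum_congr rfl fun m _ => ?_
      rw [mul_assoc, Finset.sum_mul]
      congr 1
      refine Finset.sum_congr rfl fun G hG => ?_
      rw [Finset.prod_mul_distrib, Finset.prod_const, (Finset.mem_powersetCard.1 hG).2]
      ring
    · simp [hc F hF]
  rw [Finset.sum_congr rfl fun F _ => h1 F, Finset.sum_comm]
  refine Finset.sum_congr rfl fun m _ => ?_
  rw [← Finset.sum_mul]
  congr 1
  unfold Ym
  push_cast
  rfl

/-- rewriting `Ym` by the drift legs -/
lemma Ym_eq {n m : ℕ} (hm : m ≤ n) {c : Finset α → ℝ} (hc : ∀ F, F.card ≠ n → c F = 0)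
    (ξ h : α → ℝ) :
    Ym c m ξ h = ∑ H ∈ powersetCard (n - m) univ, (∏ i ∈ H, h i) *
      ∑ G, (if Disjoint G H ∧ G.card = m then c (G ∪ H) else 0) * ∏ i ∈ G, ξ i := by
  have h1 : Ym c m ξ h = ∑ G, if G.card = m then (∏ i ∈ G, ξ i) *
      ∑ F with G ⊆ F, c F * ∏ i ∈ F \ G, h i else 0 := by
    unfold Ym
    have h2 : ∀ F : Finset α, c F * ∑ G ∈ powersetCard m F, (∏ i ∈ G, ξ i) * ∏ i ∈ F \ G, h i =
        ∑ G, if G.card = m then (if G ⊆ F then (∏ i ∈ G, ξ i) * (c F * ∏ i ∈ F \ G, h i) else 0)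
          else 0 := by
      intro F
      have h3 : powersetCard m F = (univ : Finset (Finset α)).filter
          (fun G => G.card = m ∧ G ⊆ F) := by
        ext G
        simp [Finset.mem_powersetCard, and_comm]
      rw [h3, Finset.sum_filter, Finset.mul_sum]
      refine Finset.sum_congr rfl fun G _ => ?_
      by_cases h4 : G.card = m <;> by_cases h5 : G ⊆ F <;> simp [h4, h5]
      ring
    rw [Finset.sum_congr rfl fun F _ => h2 F, Finset.sum_comm]
    refine Finset.sum_congr rfl fun G _ => ?_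
    by_cases h4 : G.card = m
    · simp only [h4, if_true]
      rw [Finset.mul_sum, Finset.sum_filter]
    · simp [h4]
  rw [h1]
  have h2 : ∀ G : Finset α, (if G.card = m then (∏ i ∈ G, ξ i) *
      ∑ F with G ⊆ F, c F * ∏ i ∈ F \ G, h i else 0) =
      ∑ H ∈ powersetCard (n - m) univ, (∏ i ∈ H, h i) *
        ((if Disjoint G H ∧ G.card = m then c (G ∪ H) else 0) * ∏ i ∈ G, ξ i) := by
    intro G
    by_cases h4 : G.card = m
    · simp only [h4, if_true, and_true]
      rw [sum_superset G (fun F H => c F * ∏ i ∈ H, h i), Finset.mul_sum]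
      have h5 : powersetCard (n - m) (univ : Finset α) =
          (univ : Finset (Finset α)).filter (fun H => H.card = n - m) := by
        ext H; simp [Finset.mem_powersetCard]
      rw [h5, Finset.sum_filter, Finset.sum_filter]
      refine Finset.sum_congr rfl fun H _ => ?_
      by_cases h6 : Disjoint G H
      · by_cases h7 : H.card = n - m
        · simp only [h6, h7, if_true]
          ring
        · have h8 : c (G ∪ H) = 0 := by
            refine hc _ ?_
            rw [Finset.card_union_of_disjoint h6, h4]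
            omega
          simp [h6, h7, h8]
      · simp [h6]
    · simp [h4]
  rw [Finset.sum_congr rfl fun G _ => h2 G, Finset.sum_comm]
  refine Finset.sum_congr rfl fun H _ => ?_
  rw [Finset.mul_sum]

lemma sum_b_sq {n m : ℕ} {c : Finset α → ℝ} (hc : ∀ F, F.card ≠ n → c F = 0) :
    ∑ H ∈ powersetCard (n - m) (univ : Finset α),
      ∑ G : Finset α, (if Disjoint G H ∧ G.card = m then c (G ∪ H) else 0) ^ 2 ≤
        n.choose m * ∑ F, c F ^ 2 := by
  have h1 : ∑ H ∈ powersetCard (n - m) (univ : Finset α),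
      ∑ G : Finset α, (if Disjoint G H ∧ G.card = m then c (G ∪ H) else 0) ^ 2 ≤
      ∑ H : Finset α,
      ∑ G : Finset α, (if Disjoint G H ∧ G.card = m then c (G ∪ H) else 0) ^ 2 :=
    Finset.sum_le_sum_of_subset_of_nonneg (Finset.subset_univ _) fun H _ _ =>
      Finset.sum_nonneg fun G _ => sq_nonneg _
  refine h1.trans (le_of_eq ?_)
  rw [Finset.sum_comm, Finset.mul_sum]
  have h2 : ∀ G : Finset α, ∑ H : Finset α,
      (if Disjoint G H ∧ G.card = m then c (G ∪ H) else 0) ^ 2 =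
      ∑ F : Finset α, if G ⊆ F ∧ G.card = m then c F ^ 2 else 0 := by
    intro G
    by_cases h4 : G.card = m
    · have h5 := sum_superset G (fun F _ => c F ^ 2)
      rw [Finset.sum_filter, Finset.sum_filter] at h5
      simp only [h4, and_true]
      rw [h5]
      refine Finset.sum_congr rfl fun H _ => ?_
      split_ifs <;> simp
    · simp [h4]
  rw [Finset.sum_congr rfl fun G _ => h2 G, Finset.sum_comm]
  refine Finset.sum_congr rfl fun F _ => ?_
  by_cases hF : F.card = n
  · have h3 : ∑ G : Finset α, (if G ⊆ F ∧ G.card = m then c F ^ 2 else 0) =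
        ∑ G ∈ powersetCard m F, c F ^ 2 := by
      rw [← Finset.sum_filter]
      refine Finset.sum_congr ?_ fun _ _ => rfl
      ext G
      simp [Finset.mem_powersetCard]
    rw [h3, Finset.sum_const, Finset.card_powersetCard, hF, nsmul_eq_mul]
  · simp [hc F hF]

end

end Vale.Agent.P042.H121
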