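import Vale.Agent.P042.H121.CubeThm

/-!
# P042, H2 (window): the cube theorem over any finite index type
-/

set_option autoImplicit false

namespace Vale.Agent.P042.H121

open Finset

/-- homogeneity: from the unit ball to all balls -/
lemma hom_ball {α : Type*} [Fintype α] {n : ℕ} {c : Finset α → ℝ}
    (hc : ∀ F, F.card ≠ n → c F = 0) {J : ℝ}
    (hJ : ∀ y : α → ℂ, ∑ i, ‖y i‖ ^ 2 ≤ 1 → ‖∑ F, (c F : ℂ) * ∏ i ∈ F, y i‖ ≤ J)
    (y : α → ℂ) (r : ℝ) (hr : 0 ≤ r) (hy : ∑ i, ‖y i‖ ^ 2 ≤ r ^ 2) :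
    ‖∑ F, (c F : ℂ) * ∏ i ∈ F, y i‖ ≤ J * r ^ n := by
  rcases hr.eq_or_lt with h0 | h0
  · -- all `y i` vanish
    have hy0 : ∀ i, y i = 0 := by
      intro i
      have h1 : ‖y i‖ ^ 2 ≤ 0 := by
        have h2 := Finset.single_le_sum (f := fun i => ‖y i‖ ^ 2) (fun i _ => sq_nonneg _)
          (Finset.mem_univ i)
        rw [← h0] at hy
        simpa using h2.trans hy
      have h2 : ‖y i‖ = 0 := by
        have := sq_nonneg ‖y i‖
        exact pow_eq_zero_iff (two_ne_zero) |>.1 (le_antisymm h1 this)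
      exact norm_eq_zero.1 h2
    rcases Nat.eq_zero_or_pos n with hn | hn
    · rw [hn, pow_zero, mul_one]
      refine hJ y ?_
      simp [hy0]
    · rw [← h0, zero_pow hn.ne', mul_zero]
      refine le_of_eq ?_
      rw [norm_eq_zero]
      refine Finset.sum_eq_zero fun F _ => ?_
      by_cases hF : F.card = n
      · obtain ⟨i, hi⟩ : F.Nonempty := by
          rw [← Finset.card_pos]; omega
        rw [Finset.prod_eq_zero hi (hy0 i), mul_zero]
      · simp [hc F hF]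
  · have h1 := hJ (fun i => (r : ℂ)⁻¹ * y i) (by
      have h2 : ∀ i, ‖(r : ℂ)⁻¹ * y i‖ ^ 2 = (r ^ 2)⁻¹ * ‖y i‖ ^ 2 := by
        intro i
        rw [norm_mul, norm_inv, Complex.norm_real, Real.norm_of_nonneg hr, mul_pow, inv_pow]
      rw [Finset.sum_congr rfl fun i _ => h2 i, ← Finset.mul_sum, inv_mul_le_iff₀ (by positivity)]
      simpa using hy)
    have h2 : ∑ F, (c F : ℂ) * ∏ i ∈ F, ((r : ℂ)⁻¹ * y i) =
        ((r : ℂ)⁻¹) ^ n * ∑ F, (c F : ℂ) * ∏ i ∈ F, y i := by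
      rw [Finset.mul_sum]
      refine Finset.sum_congr rfl fun F _ => ?_
      by_cases hF : F.card = n
      · rw [Finset.prod_mul_distrib, Finset.prod_const, hF]; ring
      · simp [hc F hF]
    rw [h2, norm_mul, norm_pow, norm_inv, Complex.norm_real, Real.norm_of_nonneg hr, inv_pow,
      inv_mul_le_iff₀ (by positivity)] at h1
    rw [mul_comm]
    exact h1

/-- **THE CUBE THEOREM**, any finite index type, unit ball, normalised average -/
theorem cubeF {Ω : Type*} [Fintype Ω] [DecidableEq Ω] {n Q : ℕ} (hQ : 1 ≤ Q)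
    {c : Finset Ω → ℝ} (hc : ∀ F, F.card ≠ n → c F = 0) {C : ℝ} (hC0 : 0 ≤ C)
    (hC : ∑ F, c F ^ 2 ≤ C ^ 2) {J : ℝ} (hJ0 : 0 ≤ J)
    (hJ : ∀ y : Ω → ℂ, ∑ i, ‖y i‖ ^ 2 ≤ 1 → ‖∑ F, (c F : ℂ) * ∏ i ∈ F, y i‖ ≤ J)
    {Lam : ℝ} (hL : 8 * (Q * n / 2 * Real.log (Fintype.card Ω) + n + 1) ≤ Lam) :
    (1 / 2 : ℝ) ^ Fintype.card Ω * ∑ ε : Ω → Bool, |∑ F, c F * ∏ i ∈ F, sg (ε i)| ^ Q ≤
      (∑ m ∈ range (n + 1), min (√(n.choose m) * √Lam ^ (n - m) * C)
        (J * 2 ^ n * (2 * √(Fintype.card Ω)) ^ m * √Lam ^ (n - m))) ^ Q := by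
  classical
  set N := Fintype.card Ω with hN
  set e : Ω ≃ Fin N := Fintype.equivFin Ω with he
  set c' : Finset (Fin N) → ℝ := fun F => c (F.map e.symm.toEmbedding) with hc'
  have hsum : ∀ {M : Type} [AddCommMonoid M] (f : Finset Ω → M),
      ∑ F : Finset (Fin N), f (F.map e.symm.toEmbedding) = ∑ F, f F := by
    intro M _ f
    exact (Equiv.finsetCongr e.symm).sum_comp f
  have hLam0 : 0 ≤ Lam := by
    refine le_trans ?_ hL
    have : 0 ≤ Real.log N := Real.log_natCast_nonneg N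
    positivity
  have hc'n : ∀ F, F.card ≠ n → c' F = 0 := fun F hF => hc _ (by rwa [Finset.card_map])
  have hC' : ∑ F, c' F ^ 2 ≤ C ^ 2 := by
    have h1 := hsum (fun F => c F ^ 2)
    simp only [hc']
    rw [h1]
    exact hC
  have hJ' : ∀ (y : Fin N → ℂ) (r : ℝ), 0 ≤ r → ∑ i, ‖y i‖ ^ 2 ≤ r ^ 2 →
      ‖∑ F, (c' F : ℂ) * ∏ i ∈ F, y i‖ ≤ J * r ^ n := by
    intro y r hr hy
    have h1 := hom_ball hc hJ (fun p => y (e p)) r hr (by
      rw [e.sum_comp (fun i => ‖y i‖ ^ 2)]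
      exact hy)
    have h2 := hsum (fun F => (c F : ℂ) * ∏ p ∈ F, y (e p))
    rw [← h2] at h1
    refine le_trans (le_of_eq ?_) h1
    congr 1
    refine Finset.sum_congr rfl fun F _ => ?_
    rw [Finset.prod_map]
    simp [hc']
  have h := cube (n := n) (Q := Q) hQ hc'n hC0 hC' hJ0 hJ' (L := √Lam) (Real.sqrt_nonneg _) (by
    rw [Real.sq_sqrt hLam0]
    exact hL)
  have h1 : ∑ ε : Ω → Bool, |∑ F, c F * ∏ i ∈ F, sg (ε i)| ^ Q = ∑ ε, |poly c' ε| ^ Q := by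
    rw [← (Equiv.arrowCongr e (Equiv.refl Bool)).sum_comp (fun ε => |poly c' ε| ^ Q)]
    refine Finset.sum_congr rfl fun ε _ => ?_
    congr 2
    unfold poly
    rw [← hsum (fun F => c F * ∏ i ∈ F, sg (ε i))]
    refine Finset.sum_congr rfl fun F _ => ?_
    rw [Finset.prod_map]
    simp [hc', Equiv.arrowCongr]
  rw [h1]
  have h2 : (0 : ℝ) < 2 ^ N := by positivity
  rw [one_div, inv_pow, inv_mul_le_iff₀ h2]
  exact h

end Vale.Agent.P042.H121
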