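import Vale.Agent.P042.H121.Cube

/-!
# P042, H2 (window): the cube theorem (assembly)
-/

set_option autoImplicit false

namespace Vale.Agent.P042.H121

open Finset

section
variable {N : ℕ}

/-- the polynomial -/
def poly (c : Finset (Fin N) → ℝ) (ε : Fin N → Bool) : ℝ := ∑ F, c F * ∏ i ∈ F, sg (ε i)

lemma cs_sum {α : Type*} [Fintype α] {ρ A B : α → ℝ} (hρ : ∀ ε, 0 ≤ ρ ε) (hA : ∀ ε, 0 ≤ A ε)
    (hB : ∀ ε, 0 ≤ B ε) {a b : ℝ} (ha : 0 ≤ a) (hb : 0 ≤ b) (h1 : ∑ ε, ρ ε * A ε ≤ a ^ 2)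
    (h2 : ∑ ε, ρ ε * B ε ≤ b ^ 2) : ∑ ε, ρ ε * √(A ε * B ε) ≤ a * b := by
  have h3 : ∑ ε, ρ ε * √(A ε * B ε) = ∑ ε, √(ρ ε * A ε) * √(ρ ε * B ε) := by
    refine Finset.sum_congr rfl fun ε _ => ?_
    rw [← Real.sqrt_mul (mul_nonneg (hρ ε) (hA ε))]
    have : ρ ε * A ε * (ρ ε * B ε) = ρ ε ^ 2 * (A ε * B ε) := by ring
    rw [this, Real.sqrt_mul (sq_nonneg _), Real.sqrt_sq (hρ ε)]
  rw [h3]
  have h4 := Finset.sum_mul_sq_le_sq_mul_sq univ (fun ε => √(ρ ε * A ε)) (fun ε => √(ρ ε * B ε))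
  have h5 : ∑ ε, √(ρ ε * A ε) ^ 2 ≤ a ^ 2 := by
    refine (Finset.sum_le_sum fun ε _ => ?_).trans h1
    rw [Real.sq_sqrt (mul_nonneg (hρ ε) (hA ε))]
  have h6 : ∑ ε, √(ρ ε * B ε) ^ 2 ≤ b ^ 2 := by
    refine (Finset.sum_le_sum fun ε _ => ?_).trans h2
    rw [Real.sq_sqrt (mul_nonneg (hρ ε) (hB ε))]
  refine le_of_sq_le_sq (h4.trans ?_) (mul_nonneg ha hb)
  rw [mul_pow]
  exact mul_le_mul h5 h6 (Finset.sum_nonneg fun _ _ => sq_nonneg _) (sq_nonneg _)

/-- the Hilbert-Schmidt branch -/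
lemma hs_part {n m : ℕ} (hm : m ≤ n) {c : Finset (Fin N) → ℝ} (hc : ∀ F, F.card ≠ n → c F = 0)
    {C : ℝ} (hC0 : 0 ≤ C) (hC : ∑ F, c F ^ 2 ≤ C ^ 2) {ρ : (Fin N → Bool) → ℝ}
    (hρ : ∀ ε, 0 ≤ ρ ε) {h : (Fin N → Bool) → Fin N → ℝ} {L : ℝ} (hL : 0 ≤ L)
    (hV : ∑ ε, ρ ε * (∑ i, h ε i ^ 2 + 1) ^ (n - m) ≤ (L ^ (n - m)) ^ 2)
    (hx : ∀ b : Finset (Fin N) → ℝ, ∑ ε, ρ ε * (∑ G, b G * ∏ i ∈ G, (sg (ε i) - h ε i)) ^ 2 ≤
        ∑ G, b G ^ 2) :
    ∑ ε, ρ ε * |Ym c m (fun i => sg (ε i) - h ε i) (h ε)| ≤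
      L ^ (n - m) * (√(n.choose m) * C) := by
  set b : Finset (Fin N) → Finset (Fin N) → ℝ := fun H G =>
    if Disjoint G H ∧ G.card = m then c (G ∪ H) else 0 with hb
  set B : (Fin N → Bool) → ℝ := fun ε => ∑ H ∈ powersetCard (n - m) univ,
    (∑ G, b H G * ∏ i ∈ G, (sg (ε i) - h ε i)) ^ 2 with hB
  set A : (Fin N → Bool) → ℝ := fun ε => (∑ i, h ε i ^ 2 + 1) ^ (n - m) with hA
  have hA0 : ∀ ε, 0 ≤ A ε := fun ε => by
    have : 0 ≤ ∑ i, h ε i ^ 2 := Finset.sum_nonneg fun i _ => sq_nonneg _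
    positivity
  have hB0 : ∀ ε, 0 ≤ B ε := fun ε => Finset.sum_nonneg fun H _ => sq_nonneg _
  have h1 : ∀ ε, |Ym c m (fun i => sg (ε i) - h ε i) (h ε)| ≤ √(A ε * B ε) := by
    intro ε
    refine Real.abs_le_sqrt ?_
    rw [Ym_eq hm hc]
    refine (Finset.sum_mul_sq_le_sq_mul_sq _ _ _).trans ?_
    refine mul_le_mul_of_nonneg_right ?_ (hB0 ε)
    have h2 := esum_le (univ : Finset (Fin N)) (x := fun i => h ε i ^ 2) (fun i => sq_nonneg _) (n - m)
    have h3 : ∑ H ∈ powersetCard (n - m) (univ : Finset (Fin N)), (∏ i ∈ H, h ε i) ^ 2 =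
        ∑ H ∈ powersetCard (n - m) univ, ∏ i ∈ H, h ε i ^ 2 := by
      refine Finset.sum_congr rfl fun H _ => ?_
      rw [Finset.prod_pow]
    rw [h3]
    refine h2.trans ?_
    refine pow_le_pow_left₀ (Finset.sum_nonneg fun i _ => sq_nonneg _) ?_ _
    linarith
  have h2 : ∑ ε, ρ ε * B ε ≤ (√(n.choose m) * C) ^ 2 := by
    rw [mul_pow, Real.sq_sqrt (Nat.cast_nonneg _)]
    have h3 : ∑ ε, ρ ε * B ε = ∑ H ∈ powersetCard (n - m) univ,
        ∑ ε, ρ ε * (∑ G, b H G * ∏ i ∈ G, (sg (ε i) - h ε i)) ^ 2 := by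
      simp only [hB, Finset.mul_sum]
      rw [Finset.sum_comm]
    rw [h3]
    refine (Finset.sum_le_sum fun H _ => hx (b H)).trans ?_
    refine (sum_b_sq hc).trans ?_
    exact mul_le_mul_of_nonneg_left hC (Nat.cast_nonneg _)
  refine (Finset.sum_le_sum fun ε _ => mul_le_mul_of_nonneg_left (h1 ε) (hρ ε)).trans ?_
  exact cs_sum hρ hA0 hB0 (by positivity) (by positivity) hV h2

/-- the injective branch, pathwise -/
lemma inj_path {n m : ℕ} (hm : m ≤ n) {c : Finset (Fin N) → ℝ} (hc : ∀ F, F.card ≠ n → c F = 0)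
    {J : ℝ}
    (hJ : ∀ (y : Fin N → ℂ) (r : ℝ), 0 ≤ r → ∑ i, ‖y i‖ ^ 2 ≤ r ^ 2 →
      ‖∑ F, (c F : ℂ) * ∏ i ∈ F, y i‖ ≤ J * r ^ n)
    {ξ h : Fin N → ℝ} {a b : ℝ} (ha : 0 < a) (hb : 0 < b) (hha : ∑ i, h i ^ 2 ≤ a ^ 2)
    (hξb : ∑ i, ξ i ^ 2 ≤ b ^ 2) :
    |Ym c m ξ h| ≤ J * 2 ^ n * b ^ m * a ^ (n - m) := by
  have hr : 0 < a / b := div_pos ha hb
  have h1 := coeff_bound hm (fun j => ((Ym c j ξ h : ℝ) : ℂ)) (r := a / b) (K := J * (2 * a) ^ n)
    hr.le (by
      intro t ht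
      rw [← Psi_poly hc ξ h t]
      refine hJ _ (2 * a) (by positivity) ?_
      have h2 : ∀ i, ‖(h i : ℂ) + t * ξ i‖ ^ 2 ≤ 2 * h i ^ 2 + 2 * (a / b) ^ 2 * ξ i ^ 2 := by
        intro i
        have h3 : ‖(h i : ℂ) + t * ξ i‖ ≤ |h i| + a / b * |ξ i| := by
          refine (norm_add_le _ _).trans ?_
          rw [norm_mul, Complex.norm_real, Complex.norm_real, ht, Real.norm_eq_abs, Real.norm_eq_abs]
        have h4 := pow_le_pow_left₀ (norm_nonneg _) h3 2
        refine h4.trans ?_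
        have h5 := sq_nonneg (|h i| - a / b * |ξ i|)
        have h6 := sq_abs (h i)
        have h7 := sq_abs (ξ i)
        nlinarith
      refine (Finset.sum_le_sum fun i _ => h2 i).trans ?_
      rw [Finset.sum_add_distrib, ← Finset.mul_sum, ← Finset.mul_sum]
      have h3 : 2 * (a / b) ^ 2 * ∑ i, ξ i ^ 2 ≤ 2 * (a / b) ^ 2 * b ^ 2 :=
        mul_le_mul_of_nonneg_left hξb (by positivity)
      have h4 : 2 * (a / b) ^ 2 * b ^ 2 = 2 * a ^ 2 := by field_simp
      nlinarith)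
  rw [Complex.norm_real, Real.norm_eq_abs] at h1
  have h2 : J * (2 * a) ^ n = J * 2 ^ n * a ^ (n - m) * b ^ m * (a / b) ^ m := by
    have h3 : a ^ n = a ^ (n - m) * a ^ m := by rw [← pow_add, Nat.sub_add_cancel hm]
    rw [mul_pow, h3, div_pow]
    field_simp
  rw [h2] at h1
  have h3 := le_of_mul_le_mul_right h1 (pow_pos hr m)
  refine h3.trans (le_of_eq ?_)
  ring

lemma young {y B : ℝ} (hy : 0 ≤ y) (hB : 0 ≤ B) (Q : ℕ) :
    (Q + 1) * (y ^ Q * B) ≤ Q * y ^ (Q + 1) + B ^ (Q + 1) := by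
  rcases hy.eq_or_lt with h0 | h0
  · rw [← h0]
    rcases Nat.eq_zero_or_pos Q with hQ | hQ
    · subst hQ; simp
    · rw [zero_pow hQ.ne', zero_mul, mul_zero, zero_pow (Nat.succ_ne_zero _), mul_zero, zero_add]
      positivity
  have h1 : 1 + ((Q + 1 : ℕ) : ℝ) * (B / y - 1) ≤ (1 + (B / y - 1)) ^ (Q + 1) :=
    one_add_mul_le_pow (by have : 0 ≤ B / y := by positivity
                           linarith) _
  have h2 : 1 + (B / y - 1) = B / y := by ring
  rw [h2, div_pow] at h1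
  have h3 := mul_le_mul_of_nonneg_left h1 (pow_pos h0 (Q + 1)).le
  rw [mul_div_cancel₀ _ (pow_pos h0 (Q + 1)).ne'] at h3
  have h4 : y ^ (Q + 1) * (1 + ((Q + 1 : ℕ) : ℝ) * (B / y - 1)) =
      (Q + 1) * (y ^ Q * B) - Q * y ^ (Q + 1) := by
    push_cast
    rw [pow_succ]
    field_simp
    ring
  rw [h4] at h3
  linarith

/-- **THE CUBE THEOREM**: the moment of order `Q` of a homogeneous polynomial of degree `n` in
`N` independent signs -/
theorem cube {n Q : ℕ} (hQ : 1 ≤ Q) {c : Finset (Fin N) → ℝ}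
    (hc : ∀ F, F.card ≠ n → c F = 0) {C : ℝ} (hC0 : 0 ≤ C) (hC : ∑ F, c F ^ 2 ≤ C ^ 2) {J : ℝ}
    (hJ0 : 0 ≤ J)
    (hJ : ∀ (y : Fin N → ℂ) (r : ℝ), 0 ≤ r → ∑ i, ‖y i‖ ^ 2 ≤ r ^ 2 →
      ‖∑ F, (c F : ℂ) * ∏ i ∈ F, y i‖ ≤ J * r ^ n)
    {L : ℝ} (hL0 : 0 ≤ L) (hL : 8 * (Q * n / 2 * Real.log N + n + 1) ≤ L ^ 2) :
    ∑ ε, |poly c ε| ^ Q ≤ 2 ^ N *
      (∑ m ∈ range (n + 1), min (√(n.choose m) * L ^ (n - m) * C)
        (J * 2 ^ n * (2 * √N) ^ m * L ^ (n - m))) ^ Q := by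
  set bd : ℝ := ∑ m ∈ range (n + 1), min (√(n.choose m) * L ^ (n - m) * C)
        (J * 2 ^ n * (2 * √N) ^ m * L ^ (n - m)) with hbd
  have hterm : ∀ m, 0 ≤ min (√(n.choose m) * L ^ (n - m) * C)
        (J * 2 ^ n * (2 * √N) ^ m * L ^ (n - m)) := fun m => le_min (by positivity) (by positivity)
  have hbdn : min C (J * √N ^ n) ≤ bd := by
    have h1 : min (√(n.choose n) * L ^ (n - n) * C) (J * 2 ^ n * (2 * √N) ^ n * L ^ (n - n)) ≤ bd :=
      Finset.single_le_sum (f := fun m => min (√(n.choose m) * L ^ (n - m) * C)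
        (J * 2 ^ n * (2 * √N) ^ m * L ^ (n - m))) (fun m _ => hterm m)
        (Finset.mem_range.2 (Nat.lt_succ_self n))
    simp only [Nat.sub_self, pow_zero, Nat.choose_self, Nat.cast_one, Real.sqrt_one, one_mul,
      mul_one] at h1
    refine le_trans (min_le_min le_rfl ?_) h1
    rw [mul_pow, mul_assoc, ← mul_assoc (2 ^ n) (2 ^ n)]
    have h2 : (1 : ℝ) ≤ 2 ^ n * 2 ^ n := by
      have := one_le_pow₀ (M₀ := ℝ) (a := 2) (by norm_num) (n := n)
      nlinarith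
    have h3 : 0 ≤ √(N : ℝ) ^ n := by positivity
    exact mul_le_mul_of_nonneg_left (by nlinarith) hJ0
  -- every value is at most `J √N ^ n`
  have hsupJ : ∀ ε, |poly c ε| ≤ J * √N ^ n := by
    intro ε
    have h1 := hJ (fun i => ((sg (ε i) : ℝ) : ℂ)) (√N) (Real.sqrt_nonneg _) (by
      rw [Real.sq_sqrt (Nat.cast_nonneg N)]
      refine le_of_eq ?_
      have : ∀ i, ‖((sg (ε i) : ℝ) : ℂ)‖ ^ 2 = 1 := by
        intro i
        rw [Complex.norm_real, Real.norm_eq_abs, abs_sg, one_pow]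
      rw [Finset.sum_congr rfl fun i _ => this i]
      simp)
    have h2 : ∑ F, (c F : ℂ) * ∏ i ∈ F, ((sg (ε i) : ℝ) : ℂ) = ((poly c ε : ℝ) : ℂ) := by
      unfold poly
      push_cast
      rfl
    rw [h2, Complex.norm_real, Real.norm_eq_abs] at h1
    exact h1
  have h2N : (0 : ℝ) < 2 ^ N := by positivity
  set S : ℝ := ∑ ε, |poly c ε| ^ Q with hS
  by_cases hSC : S ≤ 2 ^ N * C ^ Q
  · have hSJ : S ≤ 2 ^ N * (J * √N ^ n) ^ Q := by
      rw [hS]
      refine (Finset.sum_le_sum fun ε _ => pow_le_pow_left₀ (abs_nonneg _) (hsupJ ε) Q).trans ?_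
      rw [Finset.sum_const, Finset.card_univ, nsmul_eq_mul]
      simp
    have hmin : S ≤ 2 ^ N * (min C (J * √N ^ n)) ^ Q := by
      rcases le_total C (J * √N ^ n) with h | h
      · rw [min_eq_left h]; exact hSC
      · rw [min_eq_right h]; exact hSJ
    exact hmin.trans (mul_le_mul_of_nonneg_left
      (pow_le_pow_left₀ (le_min hC0 (by positivity)) hbdn Q) h2N.le)
  push Not at hSC
  have hS0 : 0 < S := lt_of_le_of_lt (by positivity) hSC
  -- the tilted law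
  set ρ : (Fin N → Bool) → ℝ := fun ε => |poly c ε| ^ Q / S with hρdef
  have hρ : ∀ ε, 0 ≤ ρ ε := fun ε => by positivity
  have hρs : ∑ ε, ρ ε = 1 := by
    simp only [hρdef]
    rw [← Finset.sum_div, div_self hS0.ne']
  -- the sup bound
  have hsup : ∀ ε, |poly c ε| ≤ √((N : ℝ) ^ n) * C := by
    intro ε
    have h1 : |poly c ε| ≤ ∑ F ∈ powersetCard n (univ : Finset (Fin N)), |c F| * 1 := by
      unfold poly
      have h2 : ∑ F, c F * ∏ i ∈ F, sg (ε i) =
          ∑ F ∈ powersetCard n (univ : Finset (Fin N)), c F * ∏ i ∈ F, sg (ε i) := by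
        symm
        refine Finset.sum_subset (Finset.subset_univ _) fun F _ hF => ?_
        have : F.card ≠ n := fun h => hF (Finset.mem_powersetCard.2 ⟨Finset.subset_univ _, h⟩)
        rw [hc F this, zero_mul]
      rw [h2]
      refine (Finset.abs_sum_le_sum_abs _ _).trans (le_of_eq ?_)
      refine Finset.sum_congr rfl fun F _ => ?_
      rw [abs_mul, Finset.abs_prod]
      congr 1
      exact Finset.prod_eq_one fun i _ => abs_sg _
    refine h1.trans ?_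
    refine (le_of_sq_le_sq ?_ (by positivity))
    refine (Finset.sum_mul_sq_le_sq_mul_sq _ _ _).trans ?_
    rw [mul_pow, Real.sq_sqrt (by positivity), mul_comm]
    refine mul_le_mul ?_ ?_ (Finset.sum_nonneg fun _ _ => sq_nonneg _) (by positivity)
    · simp only [one_pow, Finset.sum_const, Finset.card_powersetCard, Finset.card_univ,
        Fintype.card_fin, nsmul_eq_mul, mul_one]
      exact_mod_cast Nat.choose_le_pow N n
    · refine le_trans ?_ hC
      simp only [sq_abs]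
      exact Finset.sum_le_sum_of_subset_of_nonneg (Finset.subset_univ _) fun F _ _ => sq_nonneg _
  have hCpos : 0 < C := by
    rcases hC0.eq_or_lt with h | h
    · exfalso
      have h1 : S ≤ 0 := by
        rw [hS]
        refine Finset.sum_nonpos fun ε _ => ?_
        have h2 := hsup ε
        rw [← h, mul_zero] at h2
        have h3 : |poly c ε| = 0 := le_antisymm h2 (abs_nonneg _)
        rw [h3, zero_pow (by omega)]
      linarith
    · exact h
  have hN1 : 0 < N := by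
    rcases Nat.eq_zero_or_pos N with hN | hN
    · exfalso
      have h1 : √((N : ℝ) ^ n) ≤ 1 := by
        rw [← Real.sqrt_one]
        refine Real.sqrt_le_sqrt ?_
        rw [hN]
        rcases Nat.eq_zero_or_pos n with hn | hn
        · simp [hn]
        · simp [hn.ne']
      have h2 : S ≤ 2 ^ N * C ^ Q := by
        rw [hS]
        have h3 : ∀ ε, |poly c ε| ≤ C := fun ε =>
          (hsup ε).trans ((mul_le_mul_of_nonneg_right h1 hC0).trans (le_of_eq (one_mul C)))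
        refine (Finset.sum_le_sum fun ε _ => pow_le_pow_left₀ (abs_nonneg _) (h3 ε) Q).trans ?_
        rw [Finset.sum_const, Finset.card_univ, nsmul_eq_mul]
        simp
      linarith
    · exact hN
  have hsN : 0 < √(N : ℝ) := Real.sqrt_pos.2 (by exact_mod_cast hN1)
  set D : ℝ := Q * n / 2 * Real.log N with hD
  have hD0 : 0 ≤ D := by
    have : 0 ≤ Real.log N := Real.log_natCast_nonneg N
    positivity
  have hK : ∀ ε, ρ ε ≤ Real.exp D / 2 ^ N := by
    intro ε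
    have h1 : √((N : ℝ) ^ n) ^ Q ≤ Real.exp D := by
      have hN' : (0 : ℝ) < N := by exact_mod_cast hN1
      have h2 : √((N : ℝ) ^ n) = Real.exp (n / 2 * Real.log N) := by
        rw [Real.sqrt_eq_iff_mul_self_eq (by positivity) (Real.exp_pos _).le, ← Real.exp_add]
        have : (n : ℝ) / 2 * Real.log N + n / 2 * Real.log N = n * Real.log N := by ring
        rw [this, Real.exp_nat_mul, Real.exp_log hN']
      rw [h2, ← Real.exp_nat_mul]
      refine Real.exp_le_exp.2 (le_of_eq ?_)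
      rw [hD]; ring
    simp only [hρdef]
    rw [div_le_div_iff₀ hS0 h2N]
    have h2 : |poly c ε| ^ Q ≤ Real.exp D * C ^ Q := by
      refine (pow_le_pow_left₀ (abs_nonneg _) (hsup ε) Q).trans ?_
      rw [mul_pow]
      exact mul_le_mul_of_nonneg_right h1 (by positivity)
    calc |poly c ε| ^ Q * 2 ^ N ≤ Real.exp D * C ^ Q * 2 ^ N :=
          mul_le_mul_of_nonneg_right h2 h2N.le
      _ = Real.exp D * (2 ^ N * C ^ Q) := by ring
      _ ≤ Real.exp D * S := mul_le_mul_of_nonneg_left hSC.le (Real.exp_pos _).le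
  obtain ⟨h, hh1, hh2, hh3⟩ := exists_drift N ρ hρ
  rw [hρs, Real.sqrt_one, mul_one] at hh2
  simp only [hρs, one_mul] at hh3
  have hv0 : ∀ ε, 0 ≤ ∑ i, h ε i ^ 2 := fun ε => Finset.sum_nonneg fun i _ => sq_nonneg _
  have hE := drift_exp hρ hK (v := fun ε => ∑ i, h ε i ^ 2) hh2
  have hV : ∀ j : ℕ, j ≤ n → ∑ ε, ρ ε * (∑ i, h ε i ^ 2 + 1) ^ j ≤ (L ^ j) ^ 2 := by
    intro j hj
    refine (drift_moment hρ hρs hD0 hv0 hE j).trans ?_
    rw [← pow_mul, mul_comm j 2, pow_mul]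
    refine pow_le_pow_left₀ (by positivity) ?_ j
    refine le_trans ?_ hL
    have : (j : ℝ) ≤ n := by exact_mod_cast hj
    rw [hD]
    linarith
  -- decomposition
  have hdec : ∀ ε, |poly c ε| ≤ ∑ m ∈ range (n + 1), |Ym c m (fun i => sg (ε i) - h ε i) (h ε)| := by
    intro ε
    have h1 : poly c ε = ∑ m ∈ range (n + 1), Ym c m (fun i => sg (ε i) - h ε i) (h ε) := by
      rw [← sum_Ym hc]
      unfold poly
      refine Finset.sum_congr rfl fun F _ => ?_
      congr 1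
      refine Finset.prod_congr rfl fun i _ => ?_
      ring
    rw [h1]
    exact Finset.abs_sum_le_sum_abs _ _
  have hmean : ∑ ε, ρ ε * |poly c ε| ≤ bd := by
    have h1 : ∑ ε, ρ ε * |poly c ε| ≤ ∑ m ∈ range (n + 1),
        ∑ ε, ρ ε * |Ym c m (fun i => sg (ε i) - h ε i) (h ε)| := by
      rw [Finset.sum_comm]
      refine Finset.sum_le_sum fun ε _ => ?_
      rw [← Finset.mul_sum]
      exact mul_le_mul_of_nonneg_left (hdec ε) (hρ ε)
    refine h1.trans ?_
    rw [hbd]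
    refine Finset.sum_le_sum fun m hm => ?_
    have hmn : m ≤ n := by have := Finset.mem_range.1 hm; omega
    refine le_min ?_ ?_
    · refine (hs_part hmn hc hC0 hC hρ hL0 (hV _ (Nat.sub_le n m)) hh3).trans (le_of_eq ?_)
      ring
    · have h2 : ∀ ε, |Ym c m (fun i => sg (ε i) - h ε i) (h ε)| ≤
          J * 2 ^ n * (2 * √N) ^ m * √((∑ i, h ε i ^ 2 + 1) ^ (n - m)) := by
        intro ε
        have h3 := inj_path hmn hc hJ (ξ := fun i => sg (ε i) - h ε i) (h := h ε)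
          (a := √(∑ i, h ε i ^ 2 + 1)) (b := 2 * √N)
          (Real.sqrt_pos.2 (by have := hv0 ε; linarith)) (by positivity)
          (by rw [Real.sq_sqrt (by have := hv0 ε; linarith)]; linarith)
          (by
            have h4 : ∀ i, (sg (ε i) - h ε i) ^ 2 ≤ 4 := by
              intro i
              have h5 := abs_le.1 (hh1 ε i)
              have h6 := abs_le.1 (le_of_eq (abs_sg (ε i)))
              nlinarith
            refine (Finset.sum_le_sum fun i _ => h4 i).trans ?_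
            rw [Finset.sum_const, Finset.card_univ, Fintype.card_fin, nsmul_eq_mul]
            have h5 : √(N : ℝ) ^ 2 = N := Real.sq_sqrt (Nat.cast_nonneg N)
            nlinarith)
        refine h3.trans (le_of_eq ?_)
        congr 1
        symm
        rw [Real.sqrt_eq_iff_mul_self_eq (by have := hv0 ε; positivity) (by positivity), ← pow_two,
          ← pow_mul, mul_comm (n - m) 2, pow_mul, Real.sq_sqrt (by have := hv0 ε; linarith)]
      have h3 : ∑ ε, ρ ε * √((∑ i, h ε i ^ 2 + 1) ^ (n - m)) ≤ L ^ (n - m) := by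
        have h4 := cs_sum hρ (A := fun ε => (∑ i, h ε i ^ 2 + 1) ^ (n - m)) (B := fun _ => 1)
          (fun ε => by have := hv0 ε; positivity) (fun _ => zero_le_one) (a := L ^ (n - m)) (b := 1)
          (by positivity) zero_le_one (hV _ (Nat.sub_le n m)) (by simp [hρs])
        simpa using h4
      calc ∑ ε, ρ ε * |Ym c m (fun i => sg (ε i) - h ε i) (h ε)|
          ≤ ∑ ε, ρ ε * (J * 2 ^ n * (2 * √N) ^ m * √((∑ i, h ε i ^ 2 + 1) ^ (n - m))) :=
            Finset.sum_le_sum fun ε _ => mul_le_mul_of_nonneg_left (h2 ε) (hρ ε)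
        _ = J * 2 ^ n * (2 * √N) ^ m * ∑ ε, ρ ε * √((∑ i, h ε i ^ 2 + 1) ^ (n - m)) := by
            rw [Finset.mul_sum]
            refine Finset.sum_congr rfl fun ε _ => ?_
            ring
        _ ≤ _ := mul_le_mul_of_nonneg_left h3 (by positivity)
  -- conclusion by Young
  have hJpos : 0 < J * √N ^ n := by
    by_contra hcon
    push Not at hcon
    have h1 : S ≤ 0 := by
      rw [hS]
      refine Finset.sum_nonpos fun ε _ => ?_
      have h3 : |poly c ε| = 0 := le_antisymm ((hsupJ ε).trans hcon) (abs_nonneg _)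
      rw [h3, zero_pow (by omega)]
    linarith
  have hbd0 : 0 < bd := lt_of_lt_of_le (lt_min hCpos hJpos) hbdn
  have h1 : ∑ ε, |poly c ε| ^ (Q + 1) ≤ bd * S := by
    have h2 : ∑ ε, ρ ε * |poly c ε| = (∑ ε, |poly c ε| ^ (Q + 1)) / S := by
      rw [Finset.sum_div]
      refine Finset.sum_congr rfl fun ε _ => ?_
      simp only [hρdef]
      rw [pow_succ]
      ring
    rw [h2, div_le_iff₀ hS0] at hmean
    exact hmean
  have h2 : ∑ ε : Fin N → Bool, ((Q + 1) * (|poly c ε| ^ Q * bd)) ≤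
      ∑ ε, (Q * |poly c ε| ^ (Q + 1) + bd ^ (Q + 1)) :=
    Finset.sum_le_sum fun ε _ => young (abs_nonneg _) hbd0.le Q
  rw [← Finset.mul_sum, ← Finset.sum_mul, Finset.sum_add_distrib, ← Finset.mul_sum,
    Finset.sum_const, Finset.card_univ, nsmul_eq_mul] at h2
  have h3 : (Fintype.card (Fin N → Bool) : ℝ) = 2 ^ N := by simp
  rw [h3] at h2
  have h4 : S * bd ≤ 2 ^ N * bd ^ (Q + 1) := by
    have h5 := mul_le_mul_of_nonneg_left h1 (Nat.cast_nonneg Q : (0 : ℝ) ≤ Q)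
    nlinarith
  have h5 : S * bd ≤ 2 ^ N * bd ^ Q * bd := by
    refine h4.trans (le_of_eq ?_)
    rw [pow_succ]; ring
  exact le_of_mul_le_mul_right h5 hbd0

end

end Vale.Agent.P042.H121
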