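import Mathlib

/-!
# P042, H2 (window): predictable drift of a law on the cube

`exists_drift`: every nonnegative weight on `{-1,1}^N` has a drift `h` (coordinates revealed one by
one) such that the noises `sg (ε i) - h ε i` have the second moments of independent signs and such
that the Hellinger weight controls `exp (∑ h^2 / 8)`.
-/

set_option autoImplicit false

namespace Vale.Agent.P042.H121

open Finset

/-- the sign of a bit -/
def sg (b : Bool) : ℝ := if b then 1 else -1

lemma sg_sq (b : Bool) : sg b ^ 2 = 1 := by cases b <;> simp [sg]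

lemma abs_sg (b : Bool) : |sg b| = 1 := by cases b <;> simp [sg]

/-- splitting the subsets of `Fin (N+1)` -/
lemma sum_finset_succ {M : Type*} [AddCommMonoid M] (N : ℕ) (f : Finset (Fin (N + 1)) → M) :
    ∑ G, f G = ∑ G : Finset (Fin N), (f (G.map (Fin.succEmb N)) +
      f (insert 0 (G.map (Fin.succEmb N)))) := by
  classical
  have h0 : ∀ s : Finset (Fin N), (0 : Fin (N + 1)) ∉ s.map (Fin.succEmb N) := by
    intro s hs
    obtain ⟨a, -, ha⟩ := Finset.mem_map.1 hs
    exact Fin.succ_ne_zero a ha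
  have hu : (univ : Finset (Fin (N + 1))) = insert 0 ((univ : Finset (Fin N)).map (Fin.succEmb N)) := by
    rw [Fin.univ_succ, Finset.cons_eq_insert]
    rfl
  have h1 : ∑ G : Finset (Fin (N + 1)), f G = ∑ G ∈ (univ : Finset (Fin (N + 1))).powerset, f G := by
    rw [Finset.powerset_univ]
  rw [h1, hu, Finset.sum_powerset_insert (h0 _), Finset.sum_add_distrib]
  have h2 : ∀ g : Finset (Fin (N + 1)) → M,
      ∑ G ∈ ((univ : Finset (Fin N)).map (Fin.succEmb N)).powerset, g G =
        ∑ G : Finset (Fin N), g (G.map (Fin.succEmb N)) := by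
    intro g
    symm
    refine Finset.sum_bij (fun G _ => G.map (Fin.succEmb N)) ?_ ?_ ?_ ?_
    · intro G _
      exact Finset.mem_powerset.2 (Finset.map_subset_map.2 (Finset.subset_univ _))
    · intro G _ G' _ h
      exact Finset.map_injective _ h
    · intro G hG
      obtain ⟨u, -, hu⟩ := Finset.subset_map_iff.1 (Finset.mem_powerset.1 hG)
      exact ⟨u, Finset.mem_univ _, hu.symm⟩
    · intro G _
      rfl
  rw [h2, h2]

lemma sum_cube_succ {M : Type*} [AddCommMonoid M] (N : ℕ) (f : (Fin (N + 1) → Bool) → M) :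
    ∑ ε, f ε = ∑ ε : Fin N → Bool, (f (Fin.cons true ε) + f (Fin.cons false ε)) := by
  rw [← (Fin.consEquiv fun _ : Fin (N + 1) => Bool).sum_comp, Fintype.sum_prod_type,
    Finset.sum_add_distrib, Fintype.sum_bool]
  rfl

lemma hell {a b : ℝ} (ha : 0 ≤ a) (hb : 0 ≤ b) :
    (√a + √b) * Real.exp (((a - b) / (a + b)) ^ 2 / 8) ≤ √2 * √(a + b) := by
  rcases (add_nonneg ha hb).eq_or_lt with h0 | h0
  · have ha0 : a = 0 := by linarith
    have hb0 : b = 0 := by linarith
    simp [ha0, hb0]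
  set s := a + b with hs
  set x := (a - b) / s with hx
  have h1 : (√a + √b) ^ 2 ≤ 2 * s * (1 - x ^ 2 / 4) := by
    have h2 : √a ^ 2 = a := Real.sq_sqrt ha
    have h3 : √b ^ 2 = b := Real.sq_sqrt hb
    have h4 : 2 * (√a * √b) ≤ s * (1 - x ^ 2 / 2) := by
      have h5 : (2 * (√a * √b)) ^ 2 = s ^ 2 * (1 - x ^ 2) := by
        rw [hx]
        field_simp
        rw [h2, h3, hs]
        ring
      have h6 : 0 ≤ 1 - x ^ 2 := by
        have : 0 ≤ s ^ 2 * (1 - x ^ 2) := h5 ▸ sq_nonneg _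
        exact nonneg_of_mul_nonneg_right this (by positivity)
      have h7 : 0 ≤ s * (1 - x ^ 2 / 2) := by
        have : 0 ≤ 1 - x ^ 2 / 2 := by nlinarith [sq_nonneg x]
        positivity
      refine le_of_sq_le_sq ?_ h7
      rw [h5, mul_pow]
      have h8 : 0 ≤ s ^ 2 * (x ^ 2) ^ 2 := by positivity
      nlinarith
    nlinarith
  have h2 : 1 - x ^ 2 / 4 ≤ Real.exp (-(x ^ 2 / 4)) := by
    have := Real.add_one_le_exp (-(x ^ 2 / 4))
    linarith
  have h3 : (√a + √b) ^ 2 ≤ 2 * s * Real.exp (-(x ^ 2 / 4)) :=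
    h1.trans (mul_le_mul_of_nonneg_left h2 (by positivity))
  have h4 : ((√a + √b) * Real.exp (x ^ 2 / 8)) ^ 2 ≤ (√2 * √s) ^ 2 := by
    rw [mul_pow, mul_pow, Real.sq_sqrt (by norm_num : (0 : ℝ) ≤ 2), Real.sq_sqrt h0.le,
      ← Real.exp_nat_mul]
    calc (√a + √b) ^ 2 * Real.exp ((2 : ℕ) * (x ^ 2 / 8))
        ≤ (2 * s * Real.exp (-(x ^ 2 / 4))) * Real.exp ((2 : ℕ) * (x ^ 2 / 8)) :=
          mul_le_mul_of_nonneg_right h3 (Real.exp_pos _).le
      _ = 2 * s := by
          rw [mul_assoc, ← Real.exp_add]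
          have : -(x ^ 2 / 4) + ((2 : ℕ) : ℝ) * (x ^ 2 / 8) = 0 := by push_cast; ring
          rw [this, Real.exp_zero, mul_one]
  exact le_of_sq_le_sq h4 (by positivity)

/-- **the drift** -/
theorem exists_drift (N : ℕ) (ρ : (Fin N → Bool) → ℝ) (hρ : ∀ ε, 0 ≤ ρ ε) :
    ∃ h : (Fin N → Bool) → Fin N → ℝ,
      (∀ ε i, |h ε i| ≤ 1) ∧
      (∑ ε, √(ρ ε) * Real.exp ((∑ i, h ε i ^ 2) / 8) ≤ √2 ^ N * √(∑ ε, ρ ε)) ∧
      (∀ b : Finset (Fin N) → ℝ, ∑ ε, ρ ε * (∑ G, b G * ∏ i ∈ G, (sg (ε i) - h ε i)) ^ 2 ≤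
        (∑ ε, ρ ε) * ∑ G, b G ^ 2) := by
  induction N with
  | zero =>
    refine ⟨fun _ _ => 0, fun _ i => i.elim0, ?_, ?_⟩
    · simp
    · intro b
      have hd : (default : Finset (Fin 0)) = ∅ := Finset.eq_empty_of_isEmpty _
      simp [hd]
  | succ N ih =>
    set ρ' : (Fin N → Bool) → ℝ := fun ε => ρ (Fin.cons true ε) + ρ (Fin.cons false ε) with hρ'
    have hρ'0 : ∀ ε, 0 ≤ ρ' ε := fun ε => add_nonneg (hρ _) (hρ _)
    obtain ⟨h', h1, h2, h3⟩ := ih ρ' hρ'0
    have hsum : ∑ ε, ρ ε = ∑ ε, ρ' ε := sum_cube_succ N ρ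
    set h0 : (Fin N → Bool) → ℝ := fun ε =>
      (ρ (Fin.cons true ε) - ρ (Fin.cons false ε)) / ρ' ε with hh0
    have h0b : ∀ ε, |h0 ε| ≤ 1 := by
      intro ε
      rw [hh0]
      simp only [abs_div]
      rw [abs_of_nonneg (hρ'0 ε)]
      refine div_le_one_of_le₀ ?_ (hρ'0 ε)
      rw [abs_le]
      have ha := hρ (Fin.cons true ε)
      have hb := hρ (Fin.cons false ε)
      simp only [hρ']
      constructor <;> linarith
    have h0s : ∀ ε, h0 ε * ρ' ε = ρ (Fin.cons true ε) - ρ (Fin.cons false ε) := by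
      intro ε
      simp only [hh0]
      rcases (hρ'0 ε).eq_or_lt with hz | hz
      · have ha := hρ (Fin.cons true ε)
        have hb := hρ (Fin.cons false ε)
        have hz' : ρ (Fin.cons true ε) + ρ (Fin.cons false ε) = 0 := hz.symm
        rw [← hz, mul_zero]
        linarith
      · rw [div_mul_cancel₀ _ hz.ne']
    refine ⟨fun ε => Fin.cons (h0 (Fin.tail ε)) (h' (Fin.tail ε)), ?_, ?_, ?_⟩
    · intro ε i
      refine Fin.cases ?_ (fun j => ?_) i
      · simpa using h0b (Fin.tail ε)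
      · simpa using h1 (Fin.tail ε) j
    · rw [sum_cube_succ, hsum]
      have hstep : ∀ ε : Fin N → Bool,
          √(ρ (Fin.cons true ε)) * Real.exp ((∑ i, (Fin.cons (h0 (Fin.tail (Fin.cons true ε : Fin (N + 1) → Bool)))
              (h' (Fin.tail (Fin.cons true ε : Fin (N + 1) → Bool))) : Fin (N + 1) → ℝ) i ^ 2) / 8) +
          √(ρ (Fin.cons false ε)) * Real.exp ((∑ i, (Fin.cons (h0 (Fin.tail (Fin.cons false ε : Fin (N + 1) → Bool)))
              (h' (Fin.tail (Fin.cons false ε : Fin (N + 1) → Bool))) : Fin (N + 1) → ℝ) i ^ 2) / 8)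
          ≤ √2 * (√(ρ' ε) * Real.exp ((∑ i, h' ε i ^ 2) / 8)) := by
        intro ε
        rw [Fin.tail_cons, Fin.tail_cons, Fin.sum_univ_succ]
        simp only [Fin.cons_zero, Fin.cons_succ]
        rw [add_div, Real.exp_add]
        have hh := hell (hρ (Fin.cons true ε)) (hρ (Fin.cons false ε))
        have he := (Real.exp_pos ((∑ i, h' ε i ^ 2) / 8)).le
        have := mul_le_mul_of_nonneg_right hh he
        simp only [hh0, hρ']
        nlinarith [this]
      refine (Finset.sum_le_sum fun ε _ => hstep ε).trans ?_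
      rw [← Finset.mul_sum, pow_succ, mul_comm (√2 ^ N) √2, mul_assoc]
      exact mul_le_mul_of_nonneg_left h2 (Real.sqrt_nonneg _)
    · intro b
      rw [sum_cube_succ, hsum, sum_finset_succ]
      set b1 : Finset (Fin N) → ℝ := fun G => b (G.map (Fin.succEmb N)) with hb1
      set b2 : Finset (Fin N) → ℝ := fun G => b (insert 0 (G.map (Fin.succEmb N))) with hb2
      have hn0 : ∀ s : Finset (Fin N), (0 : Fin (N + 1)) ∉ s.map (Fin.succEmb N) := by
        intro s hs
        obtain ⟨a, -, ha⟩ := Finset.mem_map.1 hs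
        exact Fin.succ_ne_zero a ha
      have hstep : ∀ ε : Fin N → Bool,
          ρ (Fin.cons true ε) * (∑ G, b G * ∏ i ∈ G, (sg ((Fin.cons true ε : Fin (N + 1) → Bool) i) -
              (Fin.cons (h0 (Fin.tail (Fin.cons true ε : Fin (N + 1) → Bool)))
              (h' (Fin.tail (Fin.cons true ε : Fin (N + 1) → Bool))) : Fin (N + 1) → ℝ) i)) ^ 2 +
          ρ (Fin.cons false ε) * (∑ G, b G * ∏ i ∈ G, (sg ((Fin.cons false ε : Fin (N + 1) → Bool) i) -
              (Fin.cons (h0 (Fin.tail (Fin.cons false ε : Fin (N + 1) → Bool)))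
              (h' (Fin.tail (Fin.cons false ε : Fin (N + 1) → Bool))) : Fin (N + 1) → ℝ) i)) ^ 2
          ≤ ρ' ε * (∑ G, b1 G * ∏ i ∈ G, (sg (ε i) - h' ε i)) ^ 2 +
            ρ' ε * (∑ G, b2 G * ∏ i ∈ G, (sg (ε i) - h' ε i)) ^ 2 := by
        intro ε
        have hexp : ∀ t : Bool, (∑ G, b G * ∏ i ∈ G, (sg ((Fin.cons t ε : Fin (N + 1) → Bool) i) -
              (Fin.cons (h0 (Fin.tail (Fin.cons t ε : Fin (N + 1) → Bool)))
              (h' (Fin.tail (Fin.cons t ε : Fin (N + 1) → Bool))) : Fin (N + 1) → ℝ) i)) =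
            (∑ G, b1 G * ∏ i ∈ G, (sg (ε i) - h' ε i)) +
              (sg t - h0 ε) * (∑ G, b2 G * ∏ i ∈ G, (sg (ε i) - h' ε i)) := by
          intro t
          rw [sum_finset_succ, Finset.sum_add_distrib, Finset.mul_sum]
          congr 1
          · refine Finset.sum_congr rfl fun G _ => ?_
            rw [Finset.prod_map]
            simp [Fin.tail_cons, hb1]
          · refine Finset.sum_congr rfl fun G _ => ?_
            rw [Finset.prod_insert (hn0 G), Finset.prod_map]
            simp [Fin.tail_cons, hb2]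
            ring
        rw [hexp, hexp]
        set A := ∑ G, b1 G * ∏ i ∈ G, (sg (ε i) - h' ε i)
        set B := ∑ G, b2 G * ∏ i ∈ G, (sg (ε i) - h' ε i)
        have hs := h0s ε
        have hr : ρ' ε = ρ (Fin.cons true ε) + ρ (Fin.cons false ε) := rfl
        have hst : sg true = 1 := by simp [sg]
        have hsf : sg false = -1 := by simp [sg]
        rw [hst, hsf]
        have hz := hρ'0 ε
        set p := ρ (Fin.cons true ε)
        set q := ρ (Fin.cons false ε)
        set r := ρ' ε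
        set k := h0 ε
        -- p (A + (1-k) B)^2 + q (A + (-1-k) B)^2 = r A^2 + 2AB (p - q - k r) + B^2 (r - k^2 r) 
        have e1 : p * (A + (1 - k) * B) ^ 2 + q * (A + (-1 - k) * B) ^ 2 =
            r * A ^ 2 + 2 * A * B * (p - q - k * r) + B ^ 2 * (r - 2 * k * (p - q) + k ^ 2 * r) := by
          rw [hr]; ring
        rw [e1, ← hs]
        have e2 : r * A ^ 2 + 2 * A * B * (k * r - k * r) + B ^ 2 * (r - 2 * k * (k * r) + k ^ 2 * r) =
            r * A ^ 2 + r * B ^ 2 - r * (k * B) ^ 2 := by ring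
        rw [e2]
        have e3 : 0 ≤ r * (k * B) ^ 2 := mul_nonneg hz (sq_nonneg _)
        linarith
      refine (Finset.sum_le_sum fun ε _ => hstep ε).trans ?_
      have hsp : ∑ G : Finset (Fin N), (b (G.map (Fin.succEmb N)) ^ 2 +
          b (insert 0 (G.map (Fin.succEmb N))) ^ 2) = ∑ G, b1 G ^ 2 + ∑ G, b2 G ^ 2 :=
        Finset.sum_add_distrib
      rw [Finset.sum_add_distrib, hsp, mul_add]
      exact add_le_add (h3 b1) (h3 b2)

end Vale.Agent.P042.H121
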