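import Vale.Agent.P042.H944.UoPush
import Vale.Agent.P042.H527.MixNv
import Vale.Agent.P042.H461.LF2
import Vale.Agent.P042.H85.Dict
import Vale.Agent.P042.H258.NumD

set_option autoImplicit false
set_option linter.unusedSectionVars false

/-!
P042, row F.F1d: the correlation sums over all typed sites and all super-moduli, with arbitrary
radii: composition of the reduction to energies (`H944.top_red`), of the noisy moments
(`H527.mix_nv_poly`), and reindexing of the families.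
-/

namespace Vale.Agent.P042.H121

open Polynomial Finset Vale.Agent.P042.SS Vale.Agent.P042.H74
open Vale.Agent.P042.H461 (W ip Hc)
open Vale.Agent.P042.TT.Loc (uo mask restr nW)
open Vale.Agent.P042.UU.Loc (tr)
open Vale.Agent.P042.H944 (pF Eng EngC Ytop zc)
open Vale.Agent.P042.H452 (FB low)

/-! ### one side -/

section
variable {ι : Type} [Fintype ι] [DecidableEq ι] {V : ι → Type} [∀ i, Fintype (V i)]
  [∀ i, DecidableEq (V i)] {w : ∀ i, V i → ℝ} {red : ℤ → ∀ i, V i}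

theorem Ytop_eq (h1 : ∀ i, ∑ a, w i a = 1) (rho : ι → ℝ) (D : Finset (Finset ι))
    (M2 : Finset ℕ) (v : ℕ → ℝ) (S : Finset ℤ) (f : ℤ → ℝ) :
    Ytop w red rho D M2 v S f =
      ∑ C ∈ D, (∏ i ∈ C, 2 * rho i) *
        ∑ ka ∈ (M2.sigma fun m2 => (range m2).filter (Nat.Coprime m2)) ×ˢ (univ : Finset Bool),
          v ka.1.1 * nW w C (pF w red S (fun n => f n *
            (if ka.2 then (zc ka.1.2 ka.1.1 n).re else (zc ka.1.2 ka.1.1 n).im))) := by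
  have e1 : ∀ C : Finset ι, ∑ ka ∈ (M2.sigma fun m2 => (range m2).filter (Nat.Coprime m2)) ×ˢ
      (univ : Finset Bool), v ka.1.1 * nW w C (pF w red S (fun n => f n *
            (if ka.2 then (zc ka.1.2 ka.1.1 n).re else (zc ka.1.2 ka.1.1 n).im))) =
      ∑ m2 ∈ M2, v m2 * ∑ a ∈ (range m2).filter (Nat.Coprime m2),
        (nW w C (pF w red S (fun n => f n * (zc a m2 n).re)) +
          nW w C (pF w red S (fun n => f n * (zc a m2 n).im))) := by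
    intro C
    rw [sum_product, sum_sigma]
    refine sum_congr rfl fun m2 _ => ?_
    rw [mul_sum]
    refine sum_congr rfl fun a _ => ?_
    simp only [Fintype.sum_bool, if_true, Bool.false_eq_true, if_false]
    ring
  simp only [e1]
  have e2 : ∀ m2 a, EngC w red rho D S f a m2 = ∑ C ∈ D, (∏ i ∈ C, 2 * rho i) *
      (nW w C (pF w red S (fun n => f n * (zc a m2 n).re)) +
          nW w C (pF w red S (fun n => f n * (zc a m2 n).im))) := by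
    intro m2 a
    unfold EngC Eng
    rw [← sum_add_distrib]
    refine sum_congr rfl fun C _ => ?_
    rw [H944.nW_eq_ip h1, H944.nW_eq_ip h1, mul_add]
  unfold Ytop
  calc ∑ m2 ∈ M2, v m2 * ∑ a ∈ (range m2).filter (Nat.Coprime m2), EngC w red rho D S f a m2
      = ∑ m2 ∈ M2, ∑ C ∈ D, (∏ i ∈ C, 2 * rho i) * (v m2 *
        ∑ a ∈ (range m2).filter (Nat.Coprime m2),
        (nW w C (pF w red S (fun n => f n * (zc a m2 n).re)) +
          nW w C (pF w red S (fun n => f n * (zc a m2 n).im)))) := by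
        refine sum_congr rfl fun m2 _ => ?_
        rw [sum_congr rfl fun a _ => e2 m2 a, sum_comm, mul_sum]
        refine sum_congr rfl fun C _ => ?_
        rw [← mul_sum]
        ring
    _ = _ := by
        rw [sum_comm]
        refine sum_congr rfl fun C _ => ?_
        rw [mul_sum]

/-- **one side**: the energies over all moduli, from the noisy moments -/
theorem side (m : ℕ) (hm : 1 ≤ m) (h0 : ∀ i a, 0 ≤ w i a) (h1 : ∀ i, ∑ a, w i a = 1)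
    (rho c : ι → ℝ) (hrho : ∀ i, 0 ≤ rho i) (hc : ∀ i, 0 ≤ c i)
    (hr1 : ∀ i, (8 * m + 32) * (2 * rho i) ≤ 1)
    (hs1 : ∀ i, (8 * m * (1 + c i)) ^ 2 * (2 * rho i) ≤ 1)
    (kk d : ℕ) (hd : (kk : ℝ) + 2 * ∑ i, (8 * m * (1 + c i)) ^ 2 * (2 * rho i) ≤ d)
    (D : Finset (Finset ι)) (hD : ∀ B ∈ D, B.card ≤ kk)
    (S : Finset ℤ) (f : ℤ → ℝ)
    {Sg : Type} (SG : Finset Sg) (Fs : Sg → (∀ i, V i) → ℝ) (E Ga : Sg → ℝ)
    (hGa : ∀ sg ∈ SG, 0 < Ga sg) (hE0 : ∀ sg ∈ SG, 0 ≤ E sg)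
    (hE : ∀ sg ∈ SG, ∀ (T : Finset ι) (a : ∀ i, V i), T.card ≤ d → (∀ i ∈ T, w i (a i) ≠ 0) →
      TT.Loc.en w (fun i => (8 * m + 32) * (2 * rho i)) (tr w (d - T.card) (restr T a (Fs sg))) ≤
        (∏ i ∈ T, c i) ^ 2 * E sg)
    (M2 : Finset ℕ) (v : ℕ → ℝ) (hv : ∀ m2 ∈ M2, 0 ≤ v m2) (ε : ℝ) (hε : 0 ≤ ε)
    (hlev : ∀ (T : Finset ι) (x : ∀ i, V i), T.card ≤ d → (∀ i ∈ T, w i (x i) ≠ 0) →
      ∀ A : ℝ, 0 ≤ A →
      (∀ sg ∈ SG, uo (fun i => 1 / (8 * m * (1 + c i))) w (Fs sg) (mask T x) ≤ A * Ga sg) →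
      ∑ m2 ∈ M2, v m2 * ∑ a ∈ (range m2).filter (Nat.Coprime m2),
        (uo (fun i => 1 / (8 * m * (1 + c i))) w (pF w red S (fun n => f n * (zc a m2 n).re))
            (mask T x) ^ 2 +
          uo (fun i => 1 / (8 * m * (1 + c i))) w (pF w red S (fun n => f n * (zc a m2 n).im))
            (mask T x) ^ 2) ≤ ε * (A ^ 2 + 1)) :
    Ytop w red rho D M2 v S f ≤
      2 * ε * ((∑ sg ∈ SG, (E sg / Ga sg ^ 2) ^ m) ^ ((m : ℝ)⁻¹) + 1) := by
  obtain ⟨q, hq⟩ : ∃ q : ι → ℝ, q = fun i => 1 / (8 * (m : ℝ) * (1 + c i)) := ⟨_, rfl⟩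
  have hv' : ∀ ka ∈ (M2.sigma fun m2 => (range m2).filter (Nat.Coprime m2)) ×ˢ
      (univ : Finset Bool), 0 ≤ v ka.1.1 := by
    intro ka hka
    rw [mem_product, mem_sigma] at hka
    exact hv _ hka.1.1
  have hlev' : ∀ (T : Finset ι) (x : ∀ i, V i), T.card ≤ d → (∀ i ∈ T, w i (x i) ≠ 0) →
      ∀ A : ℝ, 0 ≤ A →
      (∀ sg ∈ SG, uo (fun i => 1 / (8 * m * (1 + c i))) w (Fs sg) (mask T x) ≤ A * Ga sg) →
      ∑ ka ∈ (M2.sigma fun m2 => (range m2).filter (Nat.Coprime m2)) ×ˢ (univ : Finset Bool),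
        v ka.1.1 * uo (fun i => 1 / (8 * m * (1 + c i))) w (pF w red S (fun n => f n *
            (if ka.2 then (zc ka.1.2 ka.1.1 n).re else (zc ka.1.2 ka.1.1 n).im)))
            (mask T x) ^ 2 ≤ ε * (A ^ 2 + 1) := by
    intro T x hT hx A hA hAs
    refine le_trans (le_of_eq ?_) (hlev T x hT hx A hA hAs)
    rw [sum_product, sum_sigma]
    refine sum_congr rfl fun m2 _ => ?_
    rw [mul_sum]
    refine sum_congr rfl fun a _ => ?_
    simp only [Fintype.sum_bool, if_true, Bool.false_eq_true, if_false]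
    ring
  have h := H527.mix_nv_poly m hm (fun i => 2 * rho i) (fun i => (8 * m + 32) * (2 * rho i)) c
    (fun i => mul_nonneg zero_le_two (hrho i)) hr1 hc (fun i => le_rfl) hs1 w h0 h1 kk d hd SG Fs
    E Ga hGa hE0 hE ((M2.sigma fun m2 => (range m2).filter (Nat.Coprime m2)) ×ˢ
      (univ : Finset Bool)) (fun ka => v ka.1.1) hv'
    (fun ka => pF w red S (fun n => f n *
            (if ka.2 then (zc ka.1.2 ka.1.1 n).re else (zc ka.1.2 ka.1.1 n).im))) ε hε hlev'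
  rw [Ytop_eq h1]
  refine le_trans (sum_le_sum_of_subset_of_nonneg ?_ ?_) h
  · intro B hB
    rw [mem_filter]
    exact ⟨mem_univ _, hD B hB⟩
  · intro B _ _
    refine mul_nonneg (prod_nonneg fun i _ => mul_nonneg zero_le_two (hrho i))
      (sum_nonneg fun ka hka => mul_nonneg (hv' ka hka) ?_)
    exact TT.Loc.nW_nonneg w h0 h1 _ _

/-- everything needed on one side at one vector of radii: `x` = exponent of the level
inequality, `y` = exponent of the second moments -/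
def SideIn (m d : ℕ) (w : ∀ i, V i → ℝ) (red : ℤ → ∀ i, V i) (rho c : ι → ℝ) (M2 : Finset ℕ)
    (v : ℕ → ℝ) (C0 gn U x y : ℝ) (S : Finset ℤ) (f : ℤ → ℝ) : Prop :=
  ∃ (Sg : Type) (SG : Finset Sg) (Fs : Sg → (∀ i, V i) → ℝ) (Es Ga : Sg → ℝ),
    (∀ sg ∈ SG, 0 < Ga sg) ∧ (∀ sg ∈ SG, 0 ≤ Es sg) ∧
    (∑ sg ∈ SG, (Es sg / Ga sg ^ 2) ^ m ≤ U ^ m) ∧
    (∀ sg ∈ SG, ∀ (T : Finset ι) (a : ∀ i, V i), T.card ≤ d → (∀ i ∈ T, w i (a i) ≠ 0) →
      TT.Loc.en w (fun i => (8 * m + 32) * (2 * rho i)) (tr w (d - T.card) (restr T a (Fs sg))) ≤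
        (∏ i ∈ T, c i) ^ 2 * (Es sg * Real.exp y)) ∧
    (∀ (T : Finset ι) (x' : ∀ i, V i), T.card ≤ d → (∀ i ∈ T, w i (x' i) ≠ 0) →
      ∀ A : ℝ, 0 ≤ A →
      (∀ sg ∈ SG, uo (fun i => 1 / (8 * m * (1 + c i))) w (Fs sg) (mask T x') ≤ A * Ga sg) →
      ∑ m2 ∈ M2, v m2 * ∑ a ∈ (range m2).filter (Nat.Coprime m2),
        (uo (fun i => 1 / (8 * m * (1 + c i))) w (pF w red S (fun n => f n * (zc a m2 n).re))
            (mask T x') ^ 2 +
          uo (fun i => 1 / (8 * m * (1 + c i))) w (pF w red S (fun n => f n * (zc a m2 n).im))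
            (mask T x') ^ 2) ≤ C0 * gn * Real.exp x * (A ^ 2 + 1))

/-- **one side**, exponential form -/
theorem side_exp (m : ℕ) (hm : 1 ≤ m) (h0 : ∀ i a, 0 ≤ w i a) (h1 : ∀ i, ∑ a, w i a = 1)
    (rho c : ι → ℝ) (hrho : ∀ i, 0 ≤ rho i) (hc : ∀ i, 0 ≤ c i)
    (hr1 : ∀ i, (8 * m + 32) * (2 * rho i) ≤ 1)
    (hs1 : ∀ i, (8 * m * (1 + c i)) ^ 2 * (2 * rho i) ≤ 1)
    (kk d : ℕ) (hd : (kk : ℝ) + 2 * ∑ i, (8 * m * (1 + c i)) ^ 2 * (2 * rho i) ≤ d)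
    (D : Finset (Finset ι)) (hD : ∀ B ∈ D, B.card ≤ kk)
    (S : Finset ℤ) (f : ℤ → ℝ) (M2 : Finset ℕ) (v : ℕ → ℝ) (hv : ∀ m2 ∈ M2, 0 ≤ v m2)
    {C0 gn U x y : ℝ} (hC0 : 0 ≤ C0) (hgn : 0 ≤ gn) (hU : 0 ≤ U)
    (h : SideIn m d w red rho c M2 v C0 gn U x y S f) :
    Ytop w red rho D M2 v S f ≤ 2 * (C0 * gn * Real.exp x) * (U * Real.exp y + 1) := by
  obtain ⟨Sg, SG, Fs, Es, Ga, hGa, hE0, hUs, hE, hlev⟩ := h
  have hε : 0 ≤ C0 * gn * Real.exp x := by positivity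
  have hm0 : m ≠ 0 := by omega
  have h2 := side (w := w) (red := red) m hm h0 h1 rho c hrho hc hr1 hs1 kk d hd D hD S f SG Fs
    (fun sg => Es sg * Real.exp y) Ga hGa
    (fun sg hsg => mul_nonneg (hE0 sg hsg) (Real.exp_pos _).le) hE M2 v hv
    (C0 * gn * Real.exp x) hε hlev
  refine h2.trans (mul_le_mul_of_nonneg_left ?_ (by positivity))
  have e1 : ∑ sg ∈ SG, (Es sg * Real.exp y / Ga sg ^ 2) ^ m =
      Real.exp y ^ m * ∑ sg ∈ SG, (Es sg / Ga sg ^ 2) ^ m := by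
    rw [mul_sum]
    refine sum_congr rfl fun sg _ => ?_
    rw [← mul_pow]
    congr 1
    ring
  rw [e1]
  have e2 : Real.exp y ^ m * ∑ sg ∈ SG, (Es sg / Ga sg ^ 2) ^ m ≤ (U * Real.exp y) ^ m := by
    rw [mul_pow, mul_comm (U ^ m)]
    exact mul_le_mul_of_nonneg_left hUs (by positivity)
  have e3 : 0 ≤ Real.exp y ^ m * ∑ sg ∈ SG, (Es sg / Ga sg ^ 2) ^ m :=
    mul_nonneg (by positivity) (sum_nonneg fun sg hsg => pow_nonneg
      (div_nonneg (hE0 sg hsg) (sq_nonneg _)) _)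
  have e4 := Real.rpow_le_rpow e3 e2 (by positivity : (0 : ℝ) ≤ (m : ℝ)⁻¹)
  rw [Real.pow_rpow_inv_natCast (by positivity) hm0] at e4
  linarith

/-! ### the composition -/

/-- the two sides, with arbitrary radii at the low sites and weights of the moduli -/
theorem two_sides (g : ℤ[X]) (PP : Finset ℕ) (kw : ℕ → ℕ → ℝ)
    (hG : ∀ (q : ℕ) (a : ℤ), 1 ≤ q → IsCoprime a (q : ℤ) → ‖GamN g PP a q‖ ≤ kapProd kw q)
    (h0 : ∀ i a, 0 ≤ w i a) (h1 : ∀ i, ∑ a, w i a = 1)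
    {k : ∀ i, V i → V i → ℝ} {c0 : ι → ℝ} {u u' : ∀ i, V i → ℝ} {s : ∀ i, V i → V i → ℝ}
    {rho e : ι → ℝ} (hK : H365.OB w k c0 u u' s rho e) (D : Finset (Finset ι))
    (hD : ∀ B ∈ D, ∀ C ⊆ B, C ∈ D) {S1 S2 : Finset ℤ} {f f' : ℤ → ℝ}
    (hw : ∀ n ∈ S1, f n ≠ 0 → W w (red n) ≠ 0) (hw' : ∀ n ∈ S2, f' n ≠ 0 → W w (red n) ≠ 0)
    (M2 : Finset ℕ) (hM2 : ∀ m ∈ M2, 1 ≤ m) (om : ℕ → ℝ) (hom : ∀ m ∈ M2, 0 ≤ om m)
    (χ : ι → ℝ) (hχ : ∀ i, 0 ≤ χ i) :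
    ∑ B ∈ D, ∑ m2 ∈ M2, (∏ i ∈ B, χ i) *
        (om m2 * ‖FB g PP S1 S2 f f' (fun i n m => k i (red n i) (red m i)) B m2‖) ≤
      2 * Real.exp (2 * ∑ i, χ i * e i) *
        (Real.sqrt (Ytop w red (fun i => χ i * rho i) D M2 (fun m => om m * kapProd kw m) S1 f) *
          Real.sqrt (Ytop w red (fun i => χ i * rho i) D M2
            (fun m => om m * kapProd kw m) S2 f')) := by
  have h := H944.top_red g PP kw hG h0 h1 (H779.Ab.Ll.OB_smul hK hχ) D hD hw hw' M2 hM2 om hom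
  refine le_trans (le_of_eq ?_) h
  refine sum_congr rfl fun B _ => sum_congr rfl fun m2 _ => ?_
  have e1 : FB g PP S1 S2 f f' (fun i n m => χ i * k i (red n i) (red m i)) B m2 =
      ((∏ i ∈ B, χ i : ℝ) : ℂ) *
        FB g PP S1 S2 f f' (fun i n m => k i (red n i) (red m i)) B m2 := by
    unfold H452.FB
    rw [mul_sum]
    refine sum_congr rfl fun n _ => ?_
    rw [mul_sum]
    refine sum_congr rfl fun n' _ => ?_
    rw [prod_mul_distrib]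
    push_cast
    ring
  rw [e1, norm_mul, Complex.norm_real, Real.norm_eq_abs,
    abs_of_nonneg (prod_nonneg fun i _ => hχ i)]
  ring

end

/-! ### reindexing -/

section reindex
variable {α : Type*} [Fintype α] [DecidableEq α] (lo : α → Prop) [DecidablePred lo]
  (prm : α → ℕ)

/-- typed sets compatible with the super-modulus `m` -/
def DDm (m0 M0 m : ℕ) : Finset (Finset α) :=
  univ.filter fun B => (B.subtype lo).card ≤ m0 ∧
    (∏ i ∈ B.filter (fun i => ¬ lo i), prm i) * m ≤ M0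

/-- the moduli `q_U m` -/
def M2f (M0 : ℕ) (𝓜 : Finset ℕ) : Finset ℕ :=
  ((𝓜 ×ˢ (univ.filter fun i => ¬ lo i).powerset).filter
    (fun t => (∏ i ∈ t.2, prm i) * t.1 ≤ M0)).image (fun t => (∏ i ∈ t.2, prm i) * t.1)

/-- the weight of a modulus: the radii at the typed primes that divide it -/
def omr (r : α → ℝ) (m2 : ℕ) : ℝ :=
  ∏ i ∈ univ.filter (fun i => ¬ lo i ∧ prm i ∣ m2), r i

variable {lo} {prm}

theorem omr_nonneg {r : α → ℝ} (hr : ∀ i, 0 ≤ r i) (m2 : ℕ) : 0 ≤ omr lo prm r m2 :=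
  prod_nonneg fun i _ => hr i

theorem up_of_mul (hp : ∀ i, (prm i).Prime) (hinj : Function.Injective prm) {U : Finset α}
    (hU : U ⊆ univ.filter fun i => ¬ lo i) {m : ℕ} (hm : ∀ i, ¬ lo i → ¬ prm i ∣ m) :
    univ.filter (fun i => ¬ lo i ∧ prm i ∣ (∏ j ∈ U, prm j) * m) = U := by
  ext i
  rw [mem_filter]
  constructor
  · rintro ⟨_, h1, h2⟩
    rcases ((hp i).dvd_mul).1 h2 with h | h
    · exact (prm_dvd_prod hp hinj U i).1 h
    · exact absurd h (hm i h1)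
  · intro h
    have h1 := hU h
    rw [mem_filter] at h1
    exact ⟨mem_univ _, h1.2, Dvd.dvd.mul_right ((prm_dvd_prod hp hinj U i).2 h) m⟩

theorem omr_mul (hp : ∀ i, (prm i).Prime) (hinj : Function.Injective prm) {U : Finset α}
    (hU : U ⊆ univ.filter fun i => ¬ lo i) {m : ℕ} (hm : ∀ i, ¬ lo i → ¬ prm i ∣ m)
    (r : α → ℝ) : omr lo prm r ((∏ j ∈ U, prm j) * m) = ∏ i ∈ U, r i := by
  unfold omr
  rw [up_of_mul hp hinj hU hm]

theorem sum_M2f (hp : ∀ i, (prm i).Prime) (hinj : Function.Injective prm) (M0 : ℕ)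
    {𝓜 : Finset ℕ} (h𝓜 : ∀ m ∈ 𝓜, ∀ i, ¬ lo i → ¬ prm i ∣ m) (G : ℕ → ℝ) :
    ∑ m2 ∈ M2f lo prm M0 𝓜, G m2 = ∑ m ∈ 𝓜,
      ∑ U ∈ (univ.filter fun i => ¬ lo i).powerset.filter
        (fun U => (∏ i ∈ U, prm i) * m ≤ M0), G ((∏ i ∈ U, prm i) * m) := by
  unfold M2f
  rw [sum_image]
  · rw [sum_filter, sum_product]
    refine sum_congr rfl fun m _ => ?_
    rw [sum_filter]
  · intro t ht t' ht' h
    rw [coe_filter, Set.mem_ofPred_eq, mem_product, mem_powerset] at ht ht'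
    have h2 : t.2 = t'.2 := by
      rw [← up_of_mul (lo := lo) hp hinj ht.1.2 (h𝓜 _ ht.1.1),
        ← up_of_mul (lo := lo) hp hinj ht'.1.2 (h𝓜 _ ht'.1.1)]
      simp only at h
      rw [h]
    have h3 : 0 < ∏ i ∈ t'.2, prm i := prod_pos fun i _ => (hp i).pos
    have h4 : t.1 = t'.1 := by
      simp only [h2] at h
      exact Nat.eq_of_mul_eq_mul_left h3 h
    exact Prod.ext h4 h2

theorem mem_M2f {M0 : ℕ} {𝓜 : Finset ℕ} {m2 : ℕ} : m2 ∈ M2f lo prm M0 𝓜 ↔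
    ∃ m ∈ 𝓜, ∃ U : Finset α, (∀ i ∈ U, ¬ lo i) ∧ (∏ i ∈ U, prm i) * m ≤ M0 ∧
      (∏ i ∈ U, prm i) * m = m2 := by
  unfold M2f
  rw [mem_image]
  constructor
  · rintro ⟨t, ht, rfl⟩
    rw [mem_filter, mem_product, mem_powerset] at ht
    exact ⟨t.1, ht.1.1, t.2, fun i hi => (mem_filter.1 (ht.1.2 hi)).2, ht.2, rfl⟩
  · rintro ⟨m, hm, U, hU, h1, h2⟩
    refine ⟨(m, U), ?_, h2⟩
    rw [mem_filter, mem_product, mem_powerset]
    exact ⟨⟨hm, fun i hi => mem_filter.2 ⟨mem_univ i, hU i hi⟩⟩, h1⟩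

/-- a typed set is a low set and an upper set -/
theorem sum_DDm (m0 M0 m : ℕ) (G : Finset {i // lo i} → Finset α → ℝ) (r : α → ℝ) :
    ∑ B ∈ DDm lo prm m0 M0 m, (∏ i ∈ B, r i) * G (B.subtype lo) (B.filter fun i => ¬ lo i) =
      ∑ C ∈ low {i // lo i} m0, ∑ U ∈ (univ.filter fun i => ¬ lo i).powerset.filter
        (fun U => (∏ i ∈ U, prm i) * m ≤ M0),
        (∏ i ∈ C, r i) * ((∏ i ∈ U, r i) * G C U) := by
  rw [← sum_product']
  refine sum_nbij' (fun B => (B.subtype lo, B.filter fun i => ¬ lo i))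
    (fun t => t.1.map (Function.Embedding.subtype lo) ∪ t.2) ?_ ?_ ?_ ?_ ?_
  · intro B hB
    unfold DDm at hB
    rw [mem_filter] at hB
    rw [mem_product, H452.mem_low, mem_filter, mem_powerset]
    exact ⟨hB.2.1, filter_subset_filter _ (subset_univ B), hB.2.2⟩
  · intro t ht
    rw [mem_product, H452.mem_low, mem_filter, mem_powerset] at ht
    have e1 : (t.1.map (Function.Embedding.subtype lo) ∪ t.2).subtype lo = t.1 := by
      ext i
      rw [mem_subtype, mem_union, mem_map]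
      constructor
      · rintro (⟨j, hj, h⟩ | h)
        · have : j = i := Subtype.ext h
          exact this ▸ hj
        · exact absurd i.2 (mem_filter.1 (ht.2.1 h)).2
      · intro h
        exact Or.inl ⟨i, h, rfl⟩
    have e2 : (t.1.map (Function.Embedding.subtype lo) ∪ t.2).filter (fun i => ¬ lo i) = t.2 := by
      ext i
      rw [mem_filter, mem_union, mem_map]
      constructor
      · rintro ⟨⟨j, _, h⟩ | h, h2⟩
        · exact absurd (h ▸ j.2) h2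
        · exact h
      · intro h
        exact ⟨Or.inr h, (mem_filter.1 (ht.2.1 h)).2⟩
    unfold DDm
    rw [mem_filter, e1, e2]
    exact ⟨mem_univ _, ht.1, ht.2.2⟩
  · intro B _
    ext i
    simp only [mem_union, mem_map, mem_subtype, mem_filter, Function.Embedding.coe_subtype,
      Subtype.exists, exists_and_right, exists_eq_right]
    by_cases h : lo i
    · simp [h]
    · simp [h]
  · intro t ht
    rw [mem_product, H452.mem_low, mem_filter, mem_powerset] at ht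
    refine Prod.ext ?_ ?_
    · ext i
      simp only [mem_subtype, mem_union, mem_map]
      constructor
      · rintro (⟨j, hj, h⟩ | h)
        · have : j = i := Subtype.ext h
          exact this ▸ hj
        · exact absurd i.2 (mem_filter.1 (ht.2.1 h)).2
      · intro h
        exact Or.inl ⟨i, h, rfl⟩
    · ext i
      simp only [mem_filter, mem_union, mem_map]
      constructor
      · rintro ⟨⟨j, _, h⟩ | h, h2⟩
        · exact absurd (h ▸ j.2) h2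
        · exact h
      · intro h
        exact ⟨Or.inr h, (mem_filter.1 (ht.2.1 h)).2⟩
  · intro B _
    have e1 : ∏ i ∈ B, r i = (∏ i ∈ B.subtype lo, r i) * ∏ i ∈ B.filter (fun i => ¬ lo i), r i := by
      rw [← prod_filter_mul_prod_filter_not B lo]
      congr 1
      rw [prod_subtype_eq_prod_filter]
    simp only
    rw [e1, mul_assoc]

/-- **reindexing**: typed sets and super-moduli against low sets and moduli -/
theorem reindex (hp : ∀ i, (prm i).Prime) (hinj : Function.Injective prm) (m0 M0 : ℕ)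
    {𝓜 : Finset ℕ} (h𝓜 : ∀ m ∈ 𝓜, ∀ i, ¬ lo i → ¬ prm i ∣ m) (r : α → ℝ)
    (G : Finset {i // lo i} → ℕ → ℝ) :
    ∑ m ∈ 𝓜, ∑ B ∈ DDm lo prm m0 M0 m, (∏ i ∈ B, r i) *
        G (B.subtype lo) ((∏ i ∈ B.filter (fun i => ¬ lo i), prm i) * m) =
      ∑ C ∈ low {i // lo i} m0, ∑ m2 ∈ M2f lo prm M0 𝓜,
        (∏ i ∈ C, r i) * (omr lo prm r m2 * G C m2) := by
  rw [sum_congr rfl fun m _ => sum_DDm m0 M0 m
    (fun C U => G C ((∏ i ∈ U, prm i) * m)) r, sum_comm]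
  refine sum_congr rfl fun C _ => ?_
  rw [sum_M2f hp hinj M0 h𝓜]
  refine sum_congr rfl fun m hm => ?_
  refine sum_congr rfl fun U hU => ?_
  rw [mem_filter, mem_powerset] at hU
  rw [omr_mul hp hinj hU.1 (h𝓜 m hm)]

end reindex

/-! ### F.F1d -/

section final
variable {α J : Type} [Fintype α] [DecidableEq α] [Fintype J] [DecidableEq J]
  {ty : α → J} {lo : α → Prop} [DecidablePred lo] {prm : α → ℕ}
  {V : {i // lo i} → Type} [∀ i, Fintype (V i)] [∀ i, DecidableEq (V i)]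
  {w : ∀ i, V i → ℝ} {red : ℤ → ∀ i, V i}

/-- the bound of one side in exponential form -/
theorem yb_le {C0 gn U x y : ℝ} (hC0 : 0 ≤ C0) (hgn : 0 ≤ gn) (hy : 0 ≤ y) :
    2 * (C0 * gn * Real.exp x) * (U * Real.exp y + 1) ≤
      gn * (2 * C0 * (U + 1)) * Real.exp (x + y) := by
  have h1 : U * Real.exp y + 1 ≤ (U + 1) * Real.exp y := by
    have := Real.one_le_exp hy
    linarith
  rw [Real.exp_add]
  have h2 : 0 ≤ 2 * (C0 * gn * Real.exp x) := by positivity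
  refine (mul_le_mul_of_nonneg_left h1 h2).trans (le_of_eq (by ring))

/-- **F.F1d**: all typed sites, all super-moduli of `𝓜`, one vector of radii -/
theorem f1d (hp : ∀ i, (prm i).Prime) (hinj : Function.Injective prm)
    (g : ℤ[X]) (PP : Finset ℕ) (kw : ℕ → ℕ → ℝ)
    (hG : ∀ (q : ℕ) (a : ℤ), 1 ≤ q → IsCoprime a (q : ℤ) → ‖GamN g PP a q‖ ≤ kapProd kw q)
    (h0 : ∀ i a, 0 ≤ w i a) (h1 : ∀ i, ∑ a, w i a = 1)
    {k : ∀ i, V i → V i → ℝ} {c0 : {i // lo i} → ℝ} {u u' : ∀ i, V i → ℝ}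
    {s : ∀ i, V i → V i → ℝ} {rho e : {i // lo i} → ℝ} (hK : H365.OB w k c0 u u' s rho e)
    {S1 S2 : Finset ℤ} {f f' : ℤ → ℝ}
    (hw : ∀ n ∈ S1, f n ≠ 0 → W w (red n) ≠ 0) (hw' : ∀ n ∈ S2, f' n ≠ 0 → W w (red n) ≠ 0)
    (m0 M0 : ℕ) {𝓜 : Finset ℕ} (h𝓜1 : ∀ m ∈ 𝓜, 1 ≤ m)
    (h𝓜 : ∀ m ∈ 𝓜, ∀ i, ¬ lo i → ¬ prm i ∣ m) {r : J → ℝ} (hr : ∀ j, 0 ≤ r j)
    {C0 gn U C1 : ℝ} {X Bl Bd : J → ℝ} (hC0 : 0 ≤ C0) (hgn : 0 ≤ gn) (hU : 0 ≤ U)
    (hBl0 : ∀ j, 0 ≤ Bl j)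
    (hY : Ytop w red (fun i => r (ty i) * rho i) (low {i // lo i} m0) (M2f lo prm M0 𝓜)
      (fun m => omr lo prm (fun i => r (ty i)) m * kapProd kw m) S1 f ≤
      2 * (C0 * gn * Real.exp (∑ j, X j * r j)) * (U * Real.exp (∑ j, Bl j * r j ^ 2) + 1))
    (hY' : Ytop w red (fun i => r (ty i) * rho i) (low {i // lo i} m0) (M2f lo prm M0 𝓜)
      (fun m => omr lo prm (fun i => r (ty i)) m * kapProd kw m) S2 f' ≤
      2 * (C0 * gn * Real.exp (∑ j, X j * r j)) * (U * Real.exp (∑ j, Bl j * r j ^ 2) + 1))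
    (he : ∀ j, 2 * ∑ i : {i // lo i}, (if ty i = j then e i else 0) + X j ≤ Bd j)
    (hBl : ∀ j, Bl j ≤ Bd j) (hC1 : 4 * C0 * (U + 1) ≤ Real.exp C1) :
    ∑ m ∈ 𝓜, ∑ B ∈ DDm lo prm m0 M0 m,
        ‖H85.FBa g PP S1 S2 f f' prm lo (fun i n m => k i (red n i) (red m i)) m B‖ *
          ∏ i ∈ B, r (ty i) ≤
      gn * Real.exp (C1 + ∑ j, Bd j * (r j + r j ^ 2)) := by
  have hD : ∀ B ∈ low {i // lo i} m0, ∀ C ⊆ B, C ∈ low {i // lo i} m0 := fun B hB C hC =>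
    H452.mem_low.2 ((card_le_card hC).trans (H452.mem_low.1 hB))
  have hM2 : ∀ m2 ∈ M2f lo prm M0 𝓜, 1 ≤ m2 := by
    intro m2 hm2
    obtain ⟨m, hm, T, _, _, rfl⟩ := mem_M2f.1 hm2
    exact Nat.mul_pos (prod_pos fun i _ => (hp i).pos) (h𝓜1 m hm)
  have h2 := two_sides g PP kw hG h0 h1 hK (low {i // lo i} m0) hD hw hw' (M2f lo prm M0 𝓜) hM2
    (omr lo prm fun i => r (ty i)) (fun m _ => omr_nonneg (fun i => hr _) m)
    (fun i => r (ty i)) (fun i => hr _)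
  have h3 : ∑ m ∈ 𝓜, ∑ B ∈ DDm lo prm m0 M0 m,
        ‖H85.FBa g PP S1 S2 f f' prm lo (fun i n m => k i (red n i) (red m i)) m B‖ *
          ∏ i ∈ B, r (ty i) =
      ∑ B ∈ low {i // lo i} m0, ∑ m2 ∈ M2f lo prm M0 𝓜, (∏ i ∈ B, r (ty i)) *
        (omr lo prm (fun i => r (ty i)) m2 *
          ‖FB g PP S1 S2 f f' (fun i n m => k i (red n i) (red m i)) B m2‖) := by
    rw [← reindex hp hinj m0 M0 h𝓜 (fun i => r (ty i))
      (fun C m2 => ‖FB g PP S1 S2 f f' (fun i n m => k i (red n i) (red m i)) C m2‖)]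
    refine sum_congr rfl fun m _ => sum_congr rfl fun B _ => ?_
    rw [mul_comm]
    rfl
  rw [h3]
  refine h2.trans ?_
  -- the square roots
  obtain ⟨x, hx⟩ : ∃ x, x = ∑ j, X j * r j := ⟨_, rfl⟩
  obtain ⟨y, hy⟩ : ∃ y, y = ∑ j, Bl j * r j ^ 2 := ⟨_, rfl⟩
  have hy0 : 0 ≤ y := hy ▸ sum_nonneg fun j _ => mul_nonneg (hBl0 j) (sq_nonneg _)
  rw [← hx, ← hy] at hY hY'
  have hb := yb_le (U := U) (x := x) hC0 hgn hy0
  obtain ⟨Yb, hYb⟩ : ∃ z, z = gn * (2 * C0 * (U + 1)) * Real.exp (x + y) := ⟨_, rfl⟩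
  have hYb0 : 0 ≤ Yb := by
    rw [hYb]
    positivity
  rw [← hYb] at hb
  have h4 := mul_le_mul (Real.sqrt_le_sqrt (hY.trans hb)) (Real.sqrt_le_sqrt (hY'.trans hb))
    (Real.sqrt_nonneg _) (Real.sqrt_nonneg _)
  rw [Real.mul_self_sqrt hYb0] at h4
  refine (mul_le_mul_of_nonneg_left h4 (by positivity)).trans ?_
  -- the exponents
  have h5 : 2 * ∑ i : {i // lo i}, r (ty i) * e i + x ≤ ∑ j, Bd j * r j := by
    have e1 : ∑ i : {i // lo i}, r (ty i) * e i =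
        ∑ j, r j * ∑ i : {i // lo i}, (if ty i = j then e i else 0) := by
      simp only [mul_sum, mul_ite, mul_zero]
      rw [sum_comm]
      refine sum_congr rfl fun i _ => ?_
      rw [sum_ite_eq]
      simp
    rw [e1, hx, mul_sum, ← sum_add_distrib]
    refine sum_le_sum fun j _ => ?_
    have := mul_le_mul_of_nonneg_right (he j) (hr j)
    linarith
  have h6 : y ≤ ∑ j, Bd j * r j ^ 2 := by
    rw [hy]
    exact sum_le_sum fun j _ => mul_le_mul_of_nonneg_right (hBl j) (sq_nonneg _)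
  have h7 : ∑ j, Bd j * (r j + r j ^ 2) = ∑ j, Bd j * r j + ∑ j, Bd j * r j ^ 2 := by
    rw [← sum_add_distrib]
    exact sum_congr rfl fun j _ => by ring
  calc 2 * Real.exp (2 * ∑ i : {i // lo i}, r (ty i) * e i) * Yb
      = gn * ((4 * C0 * (U + 1)) *
        Real.exp (2 * ∑ i : {i // lo i}, r (ty i) * e i + (x + y))) := by
        rw [hYb, Real.exp_add (2 * ∑ i : {i // lo i}, r (ty i) * e i)]
        ring
    _ ≤ gn * (Real.exp C1 * Real.exp (∑ j, Bd j * (r j + r j ^ 2))) := by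
        refine mul_le_mul_of_nonneg_left (mul_le_mul hC1 (Real.exp_le_exp.2 ?_)
          (Real.exp_pos _).le (Real.exp_pos _).le) hgn
        rw [h7]
        linarith
    _ = _ := by rw [Real.exp_add]

/-- **F.F1d, full form**: the numbers `F1Num` of `H258.NumD`, the two sides as `SideIn` -/
theorem f1_full (hp : ∀ i, (prm i).Prime) (hinj : Function.Injective prm)
    (g : ℤ[X]) (PP : Finset ℕ) (kw : ℕ → ℕ → ℝ)
    (hG : ∀ (q : ℕ) (a : ℤ), 1 ≤ q → IsCoprime a (q : ℤ) → ‖GamN g PP a q‖ ≤ kapProd kw q)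
    (h0 : ∀ i a, 0 ≤ w i a) (h1 : ∀ i, ∑ a, w i a = 1)
    {k : ∀ i, V i → V i → ℝ} {c0 : {i // lo i} → ℝ} {u u' : ∀ i, V i → ℝ}
    {s : ∀ i, V i → V i → ℝ} {rho e : {i // lo i} → ℝ} (hK : H365.OB w k c0 u u' s rho e)
    {S1 S2 : Finset ℤ} {f f' : ℤ → ℝ}
    (hw : ∀ n ∈ S1, f n ≠ 0 → W w (red n) ≠ 0) (hw' : ∀ n ∈ S2, f' n ≠ 0 → W w (red n) ≠ 0)
    (m0 M0 : ℕ) {𝓜 : Finset ℕ} (h𝓜1 : ∀ m ∈ 𝓜, 1 ≤ m)
    (h𝓜 : ∀ m ∈ 𝓜, ∀ i, ¬ lo i → ¬ prm i ∣ m) {r : J → ℝ} (hr : ∀ j, 0 ≤ r j)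
    -- numbers
    {m d ns : ℕ} (hm : 1 ≤ m) {b γ ρ g0 Λ : ℝ} {sn : J → ℕ} {c ℓ : {i // lo i} → ℝ}
    (hc : ∀ i, 0 ≤ c i) {Rs : ℕ → ℝ}
    (N : H258.F1Num m b γ ρ g0 Λ sn (fun i : {i // lo i} => ty i) rho c ℓ r Rs ns m0 d)
    {C0 gn U C1 : ℝ} {X Bl Bd : J → ℝ} (hC0 : 0 ≤ C0) (hgn : 0 ≤ gn) (hU : 0 ≤ U)
    (hBl0 : ∀ j, 0 ≤ Bl j)
    (hs : SideIn m d w red (fun i => r (ty i) * rho i) c (M2f lo prm M0 𝓜)
      (fun m => omr lo prm (fun i => r (ty i)) m * kapProd kw m) C0 gn U (∑ j, X j * r j)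
      (∑ j, Bl j * r j ^ 2) S1 f)
    (hs' : SideIn m d w red (fun i => r (ty i) * rho i) c (M2f lo prm M0 𝓜)
      (fun m => omr lo prm (fun i => r (ty i)) m * kapProd kw m) C0 gn U (∑ j, X j * r j)
      (∑ j, Bl j * r j ^ 2) S2 f')
    (he : ∀ j, 2 * ∑ i : {i // lo i}, (if ty i = j then e i else 0) + X j ≤ Bd j)
    (hBl : ∀ j, Bl j ≤ Bd j) (hC1 : 4 * C0 * (U + 1) ≤ Real.exp C1) :
    ∑ m ∈ 𝓜, ∑ B ∈ DDm lo prm m0 M0 m,
        ‖H85.FBa g PP S1 S2 f f' prm lo (fun i n m => k i (red n i) (red m i)) m B‖ *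
          ∏ i ∈ B, r (ty i) ≤
      gn * Real.exp (C1 + ∑ j, Bd j * (r j + r j ^ 2)) := by
  have hrho : ∀ i : {i // lo i}, 0 ≤ r (ty i) * rho i := fun i =>
    mul_nonneg (hr _) (hK.rho0 i)
  have e2 : ∀ i : {i // lo i}, 2 * (r (ty i) * rho i) = 2 * rho i * r (ty i) := fun i => by ring
  have hr1 : ∀ i : {i // lo i}, (8 * m + 32) * (2 * (r (ty i) * rho i)) ≤ 1 := fun i => by
    rw [e2]
    exact N.r1 i
  have hs1 : ∀ i : {i // lo i}, (8 * m * (1 + c i)) ^ 2 * (2 * (r (ty i) * rho i)) ≤ 1 :=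
    fun i => by
      rw [e2]
      exact N.s1 i
  have hd : (m0 : ℝ) + 2 * ∑ i : {i // lo i}, (8 * m * (1 + c i)) ^ 2 *
      (2 * (r (ty i) * rho i)) ≤ d := by
    simp only [e2]
    exact N.hd
  have hkap : ∀ m2 ∈ M2f lo prm M0 𝓜, 0 ≤ omr lo prm (fun i => r (ty i)) m2 * kapProd kw m2 := by
    intro m2 hm2
    obtain ⟨m', hm', T, _, _, rfl⟩ := mem_M2f.1 hm2
    refine mul_nonneg (omr_nonneg (fun i => hr _) _) ((norm_nonneg _).trans
      (hG _ 1 (Nat.mul_pos (prod_pos fun i _ => (hp i).pos) (h𝓜1 m' hm')) isCoprime_one_left))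
  have hlow : ∀ B ∈ low {i // lo i} m0, B.card ≤ m0 := fun B hB => H452.mem_low.1 hB
  exact f1d hp hinj g PP kw hG h0 h1 hK hw hw' m0 M0 h𝓜1 h𝓜 hr hC0 hgn hU hBl0
    (side_exp m hm h0 h1 _ c hrho hc hr1 hs1 m0 d hd _ hlow S1 f _ _ hkap hC0 hgn hU hs)
    (side_exp m hm h0 h1 _ c hrho hc hr1 hs1 m0 d hd _ hlow S2 f' _ _ hkap hC0 hgn hU hs')
    he hBl hC1

end final

end Vale.Agent.P042.H121
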