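import Vale.Agent.P042.H121.NumB
import Vale.Agent.P042.H168.NumE
import Vale.Agent.P042.H743.LawI

set_option autoImplicit false

/-!
P042, power regime: all numbers of the absolute bounds (`H635.F1Nums`), hence `H860.F1F`.
-/

namespace Vale.Agent.P042.H121

open Finset
open Vale.Agent.P042.H892 (g0c)
open Vale.Agent.P042.H739 (Tst Wst Q0s)
open Vale.Agent.P042.H860
open Vale.Agent.P042.H883 (JT snT ellT scT esN)
open Vale.Agent.P042.H635 (Lo qL scL m0I M0I PrI F1Par NumAt F1Nums)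

/-- threshold for the exponent of the classes -/
noncomputable def thbN (k R n : ℕ) : ℝ :=
  1 / (|Real.log (Q0s k R (max (max n R) (2 * k)))| + 6)

theorem thbN_pos (k R n : ℕ) : 0 < thbN k R n := by
  unfold thbN
  positivity

/-- the exponents of the scales -/
theorem scale_exp {z : Loc} (hz : LocOk z) :
    z.cr * Real.log 2 < 3 * Real.log 2 / 8 - 8 * (z.kap / 50) ∧
      3 * (z.kap / 50) + z.cr * Real.log 2 < Real.log 2 / 2 ∧
      19 * (z.kap / 50) < 8 * z.g * Real.log 2 ∧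
      (2 - z.kap) * (1 / 2 + 5 * (z.kap / 50) / Real.log 2) + 12 * (z.g * z.C1) * z.cr < 1 ∧
      z.γ * Real.log 2 ≤ z.kap / 50 ∧ z.γ < 8 * z.g ∧ 0 < z.kap ∧ z.kap ≤ 1 / 4096 ∧
      0 < z.cr := by
  have hC1 := hz.C1
  have hg0 := hz.g0
  have hgC := hz.gC1
  have hγkap := hz.γkap
  have hg1 : z.g ≤ 1 / 128 := by nlinarith
  have hkap := hz.kap
  have hkap0 : 0 < z.kap := by rw [hkap]; positivity
  have hkap1 : z.kap ≤ 1 / 4096 := by rw [hkap]; linarith
  have hC0 : 0 < z.C1 := by linarith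
  have hcr0 : 0 < z.cr := by rw [hz.cr]; positivity
  have hcr1 : z.cr ≤ 1 / 8192 := by
    rw [hz.cr]
    apply one_div_le_one_div_of_le (by norm_num)
    linarith
  have hl1 := Real.log_two_gt_d9
  have hl2 := Real.log_two_lt_d9
  have hl0 : 0 < Real.log 2 := by linarith
  have hcl : z.cr * Real.log 2 ≤ 1 / 8192 := by nlinarith
  refine ⟨by linarith, by linarith, ?_, ?_, ?_, ?_, hkap0, hkap1, hcr0⟩
  · have h1 : 8 * z.g * Real.log 2 ≥ 8 * z.g * 0.69 :=
      mul_le_mul_of_nonneg_left (by linarith) (by positivity)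
    rw [hkap]
    linarith
  · have e1 : 12 * (z.g * z.C1) * z.cr = 12 * z.g / 2048 := by
      rw [hz.cr]
      field_simp
      norm_num
    have h2 : 5 * (z.kap / 50) / Real.log 2 ≤ z.kap * 0.145 := by
      rw [div_le_iff₀ hl0]
      nlinarith
    have h3 : (2 - z.kap) * (1 / 2 + 5 * (z.kap / 50) / Real.log 2) ≤
        (2 - z.kap) * (1 / 2 + z.kap * 0.145) :=
      mul_le_mul_of_nonneg_left (by linarith) (by linarith)
    have h4 : z.g = 32 * z.kap := by rw [hkap]; ring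
    rw [e1, h4]
    nlinarith
  · have h1 : z.γ * Real.log 2 ≤ z.γ * 1 := mul_le_mul_of_nonneg_left (by linarith) hz.γ0.le
    linarith
  · rw [hkap] at hγkap
    linarith

/-- **all numbers of the absolute bounds** -/
theorem f1nums : F1Nums := by
  intro k R c hk hR hc hc1
  have hg64 := H892.g0c_64 hc hc1
  have hg00 : (0 : ℝ) < g0c c := by linarith
  have hkr : (2 : ℝ) ≤ k := by exact_mod_cast hk
  refine ⟨C2v, 1 / (16 * g0c c), C2v_nonneg, by positivity, ?_⟩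
  intro z hz hC2 hc4
  obtain ⟨x1, x2, x3, x4, x5, x6, hkap0, hkap1, hcr0⟩ := scale_exp hz
  have hC1 := hz.C1
  have hC0 : 0 < z.C1 := by linarith
  have hg0 := hz.g0
  have hkg : z.kap ≤ 8 * z.g := by rw [hz.kap]; linarith
  obtain ⟨γ, hγ⟩ : ∃ γ, γ = z.kap / 50 := ⟨_, rfl⟩
  rw [← hγ] at x1 x2 x3 x4 x5
  have hγ0 : 0 < γ := by rw [hγ]; positivity
  refine ⟨γ, 3 * Real.log 2 / 8 - 8 * γ, hγ0, by linarith, ?_⟩
  obtain ⟨τ, hτ⟩ : ∃ τ, τ = tauv z.g c := ⟨_, rfl⟩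
  have hτ0 : 0 < τ := by rw [hτ]; exact tauv_pos hg0 hc hc1
  have hτg : τ * g0c c ≤ 1 / 32 := by rw [hτ]; exact tauv_g0c hc hc1
  have hα0 := hz.α0
  obtain ⟨Ka, hKa⟩ := H168.numE_I (γ := γ) (ρ := 3 * Real.log 2 / 8 - 8 * γ) (cr := z.cr)
    (kap := z.kap) (β' := 12 * (z.g * z.C1)) (g' := 8 * z.g) (γz := z.γ) (mv τ) hγ0 hcr0 x1 x2 x3
    x4 hkap0.le (by linarith) x5 x6
  obtain ⟨Kb, hKb⟩ := H743.lawNum_I (k := k) (z := z) (γ := γ) hk hz hγ.ge
  obtain ⟨Kc, hKc⟩ := H892.ga_num (e := τ / 4) (ga := z.α / 32) (by positivity) (by positivity)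
  refine ⟨fun _ => max Ka (max Kb Kc), fun _ n => min (τ / 4) (thbN k R n), fun _ n =>
    lt_min (by positivity) (thbN_pos k R n), ?_⟩
  intro C1 cs par hFA
  have hCk := hFA.eC1
  obtain ⟨s, hs⟩ : ∃ s, s = τ * (1 / (64 * (k : ℝ))) := ⟨_, rfl⟩
  have hs0 : 0 < s := by rw [hs]; positivity
  have hτs : τ ≤ 1 / 2048 := by
    have h1 : τ * 64 ≤ 1 / 32 := (mul_le_mul_of_nonneg_left hg64 hτ0.le).trans hτg
    linarith
  have hk64 : 1 / (64 * (k : ℝ)) ≤ 1 / 128 := by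
    apply one_div_le_one_div_of_le (by norm_num)
    linarith
  have hs1 : s ≤ 1 := by
    rw [hs]
    have h2 : (0 : ℝ) < 1 / (64 * (k : ℝ)) := by positivity
    nlinarith
  refine ⟨min (min (1 / (64 * k) / (4 * g0c c)) (s / 100))
    (min (1 / (800000 * z.C1)) (1 / (2000 * k))), by positivity, fun θ hθ hθθ => ?_⟩
  have hθ1 : θ ≤ 1 / (64 * k) / (4 * g0c c) :=
    hθθ.trans ((min_le_left _ _).trans (min_le_left _ _))
  have hθ2 : θ ≤ s / 100 := hθθ.trans ((min_le_left _ _).trans (min_le_right _ _))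
  have hθ3 : θ ≤ 1 / (800000 * z.C1) := hθθ.trans ((min_le_right _ _).trans (min_le_left _ _))
  have hθ4 : θ ≤ 1 / (2000 * k) := hθθ.trans ((min_le_right _ _).trans (min_le_right _ _))
  rw [le_div_iff₀ (by positivity)] at hθ1
  refine ⟨s / 200, by positivity, fun κ hκ hκs => ?_⟩
  have hF := hFA.fit κ hκ
  obtain ⟨P1, hP1, hnumE⟩ := hKa hθ
  obtain ⟨P2, hlaw⟩ := hKb (R := R) (fun κ => (le_max_left _ _).trans (le_max_right _ _)) hFA θ hθ
    hθ3 hθ4 κ hκ (by linarith)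
  obtain ⟨qp, hqp⟩ : ∃ qp, qp = par k R κ := ⟨_, rfl⟩
  rw [← hqp] at hF hlaw
  have hok := hF.ok
  have hγe : (cs k R).γ = z.α := by rw [hFA.ecs]; rfl
  have hga : qp.ga = z.α / 32 := by rw [hF.ga, hγe]
  obtain ⟨K, hK⟩ : ∃ K, K = H387.K0fun par k R κ := ⟨_, rfl⟩
  have hKe : K = max (max qp.K0 R) (2 * k) := by rw [hK, hqp]; rfl
  obtain ⟨P3, hpar⟩ := f1par_of k hk hc hc1 hg0 (kap := z.kap) hkap0 hkg (by linarith) hz.δ0
    (c4 := z.c4) (by rw [hc4]; positivity) (by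
      rw [hc4, one_div_mul_eq_div]
      rw [div_le_div_iff₀ (by positivity) (by norm_num)]
      linarith) (θ := θ) hθ (by linarith) (by rw [← hτ, ← hs]; linarith) (κ := κ)
    (by rw [← hτ, ← hs]; linarith) (kp := qp.kp) (gs := qp.g) hok.kp0.le hok.kpκ hok.g0.le hok.g1
    (Q0s k R K)
  refine ⟨max (max P1 P2) P3, fun P hP I hI rho ee hrho0 hee0 hrho hee => ?_⟩
  have hPP1 : P1 ≤ P := ((le_max_left _ _).trans (le_max_left _ _)).trans hP
  have hPP2 : P2 ≤ P := ((le_max_right _ _).trans (le_max_left _ _)).trans hP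
  have hPP3 : P3 ≤ P := (le_max_right _ _).trans hP
  have hIK : I.K0 = K := by rw [hI.hK0, hK]
  have hIP := hI.hP
  subst hIP
  have hthr : max Ka (max Kb Kc) ≤ I.K0 := by
    rw [hIK, hKe]
    exact hF.K0.trans ((le_max_left _ _).trans (le_max_left _ _))
  have hP1' : 1 ≤ I.P := hP1.trans hPP1
  obtain ⟨hnum, he⟩ := hnumE I hPP1 ((le_max_left _ _).trans hthr) rho ee
    hrho0 hrho hee
  have hbe1 : qp.be ≤ τ / 4 := hF.be.trans (min_le_left _ _)
  have hbe2 : qp.be ≤ thbN k R qp.K0 := hF.be.trans (min_le_right _ _)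
  have hq0 : I.q0 ≤ Q0s k R K := by
    have h1 := H599.ok_q0_le hI.ok
    rw [hI.hk, hI.hR, hIK] at h1
    exact h1
  have hG0 : H168.G0c qp I.N I.h0 I.q0 ≤ 2 * Real.exp 1 := by
    have hst := hI.st
    rw [← hqp, ← hI.hk, ← hI.hR] at hst
    refine G0_le (H168.cellSt_1 hI.ok (by rw [hIK, hKe, hI.hk, hI.hR]) hst) hok.be0.le hq0 ?_
      hI.ok.q0_pos
    have h2 : Real.log (Q0s k R K) ≤ |Real.log (Q0s k R K)| := le_abs_self _
    have h3 : 0 < |Real.log (Q0s k R K)| + 6 := by positivity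
    have h4 : qp.be * (|Real.log (Q0s k R K)| + 6) ≤ 1 := by
      have h5 : qp.be ≤ 1 / (|Real.log (Q0s k R K)| + 6) := by
        rw [hKe]
        exact hbe2
      calc qp.be * (|Real.log (Q0s k R K)| + 6)
          ≤ 1 / (|Real.log (Q0s k R K)| + 6) * (|Real.log (Q0s k R K)| + 6) :=
            mul_le_mul_of_nonneg_right h5 h3.le
        _ = 1 := by field_simp
    exact (mul_le_mul_of_nonneg_left (by linarith) hok.be0.le).trans h4
  obtain ⟨hr1, hr2⟩ := be_room hτ0 hbe1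
  rw [hτ] at hnum
  have hpar' := hpar I hPP3 hI.hk (by rw [hI.hC1, hCk]; exact hC1) hI.ok hq0
    (G0 := H168.G0c qp I.N I.h0 I.q0) (Real.exp_pos _).le hG0 (ρ := 3 * Real.log 2 / 8 - 8 * γ)
    (rho := fun i : Lo I z.kap => rho i.1) he hnum
  have hlaw' := hlaw I.P hPP2 I hI (H168.nsI I z.kap) (H168.sc_lt hP1')
  rw [← hqp]
  refine ⟨mv (tauv z.g c), dI θ I, H168.nsI I z.kap, 24 * θ * I.P, 3 * Real.log I.P, tauv z.g c,
    tauv z.g c, I.P / (64 * k), A1I θ qp.kp qp.g I, Real.exp (-((qp.C1 + 3) * Real.log I.P)),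
    qp.g / (5200 * qp.C1) * I.P, ?_, ?_, ?_, ?_, ?_⟩
  · rw [hC2]
    exact hpar'
  · exact hlaw'
  · rw [← hτ]
    exact hr1
  · intro p hp hpK
    have h1 := hKc p (((le_max_right _ _).trans ((le_max_right _ _).trans hthr)).trans hpK.le)
    rw [hga, ← hτ]
    refine h1.trans (mul_le_mul_of_nonneg_right hr2 (Real.log_nonneg ?_))
    exact_mod_cast hp.one_lt.le
  · exact le_rfl

/-- **the absolute bounds** -/
theorem f1F : F1F := H635.f1F_of f1nums

end Vale.Agent.P042.H121
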