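import Vale.Agent.P042.H121.F1d
import Vale.Agent.P042.H892.LV
import Vale.Agent.P042.H635.NvE

set_option autoImplicit false
set_option linter.unusedSectionVars false

/-!
P042, row F.F1d, second part: the input `SideIn` of one side from the level inequality `H892.LV`,
the absolute second moments `H635.hE_side` and the union bound `H635.U_sum`.
-/

namespace Vale.Agent.P042.H121

open Finset Vale.Agent.P042.SS Vale.Agent.P042.H74
open Vale.Agent.P042.H461 (W)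
open Vale.Agent.P042.TT.Loc (uo mask restr)
open Vale.Agent.P042.UU.Loc (tr)
open Vale.Agent.P042.H944 (pF zc)
open Vale.Agent.P042.H779.Ab.Ll (ThickG)
open Vale.Agent.P042.H635 (lawc fcl)
open Vale.Agent.P042.H892 (LVNum omR)

/-- the radii of the typed primes of a modulus in two vocabularies -/
theorem omr_eq_omR {α : Type*} [Fintype α] [DecidableEq α] {lo : α → Prop} [DecidablePred lo]
    {prm : α → ℕ} (hp : ∀ i, (prm i).Prime) (hinj : Function.Injective prm)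
    {tyP : ℕ → Prop} [DecidablePred tyP] (hty : ∀ p, tyP p ↔ ∃ i, ¬ lo i ∧ prm i = p)
    {r : α → ℝ} {R : ℕ → ℝ} (hR : ∀ i, ¬ lo i → R (prm i) = r i) {q : ℕ} (hq : q ≠ 0) :
    omR tyP R q = omr lo prm r q := by
  unfold omR omr
  have h1 : q.primeFactors.filter tyP =
      (univ.filter (fun i => ¬ lo i ∧ prm i ∣ q)).image prm := by
    ext p
    rw [mem_filter, mem_image, Nat.mem_primeFactors]
    constructor
    · rintro ⟨⟨_, h2, _⟩, h3⟩
      obtain ⟨i, hi, rfl⟩ := (hty p).1 h3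
      exact ⟨i, mem_filter.2 ⟨mem_univ i, hi, h2⟩, rfl⟩
    · rintro ⟨i, hi, rfl⟩
      rw [mem_filter] at hi
      exact ⟨⟨hp i, hi.2.2, hq⟩, (hty _).2 ⟨i, hi.2.1, rfl⟩⟩
  rw [h1, prod_image fun i _ j _ h => hinj h]
  exact prod_congr rfl fun i hi => hR i (mem_filter.1 hi).2.1

section
variable {ι : Type} [Fintype ι] [DecidableEq ι] {V : ι → Type} [∀ i, Fintype (V i)]
  [∀ i, DecidableEq (V i)] {w w2 : ∀ i, V i → ℝ} {red : ℤ → ∀ i, V i}
  {J : Type} [Fintype J] [DecidableEq J]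

/-- the cap of the noisy weight from the atoms of the reference -/
theorem sup_of {d : ℕ} {L : ι → ℝ} {lL : ℝ} (h0 : ∀ i a, 0 ≤ w i a)
    (hL : ∀ i a, w i a = 0 ∨ Real.exp (-(L i)) ≤ w i a)
    (hLl : ∀ i, L i ≤ lL) (hlL : 0 ≤ lL) {S : Finset ℤ} {f : ℤ → ℝ} {M Af A : ℝ}
    (hcap : ∀ n ∈ S, M * f n ≤ Af) (hAf : 0 ≤ Af) (hA : Af * Real.exp (d * lL) ≤ A)
    (T : Finset ι) (x : ∀ i, V i) (hT : T.card ≤ d) (hx : ∀ i ∈ T, w i (x i) ≠ 0) :
    ∀ n ∈ S, M * (f n * ∏ i ∈ T, (w i (x i))⁻¹) ≤ A := by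
  intro n hn
  have h1 : ∏ i ∈ T, (w i (x i))⁻¹ ≤ Real.exp (d * lL) := by
    calc ∏ i ∈ T, (w i (x i))⁻¹ ≤ ∏ i ∈ T, Real.exp (L i) := by
          refine prod_le_prod (fun i _ => inv_nonneg.2 (h0 _ _)) fun i hi => ?_
          have h2 := (hL i (x i)).resolve_left (hx i hi)
          have h3 := inv_anti₀ (Real.exp_pos _) h2
          rwa [← Real.exp_neg, neg_neg] at h3
      _ = Real.exp (∑ i ∈ T, L i) := (Real.exp_sum _ _).symm
      _ ≤ Real.exp (d * lL) := by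
          refine Real.exp_le_exp.2 ?_
          have h4 : ∑ i ∈ T, L i ≤ ∑ _i ∈ T, lL := sum_le_sum fun i _ => hLl i
          rw [sum_const, nsmul_eq_mul] at h4
          refine h4.trans (mul_le_mul_of_nonneg_right ?_ hlL)
          exact_mod_cast hT
  have h5 : 0 ≤ ∏ i ∈ T, (w i (x i))⁻¹ := prod_nonneg fun i _ => inv_nonneg.2 (h0 _ _)
  calc M * (f n * ∏ i ∈ T, (w i (x i))⁻¹) = (M * f n) * ∏ i ∈ T, (w i (x i))⁻¹ := by ring
    _ ≤ Af * Real.exp (d * lL) := mul_le_mul (hcap n hn) h1 h5 hAf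
    _ ≤ A := hA

/-- **one side**, from the pins inequality of every cell and the numbers -/
theorem sideIn_of {b γ ρ A0 η : ℝ} (hb : 0 < b) (hγ : 0 < γ) (hρ : 8 * γ + ρ ≤ 3 * b / 8)
    (hA0 : 1 ≤ A0) (hη : 0 < η) (hη1 : η ≤ 1) : ∃ s1 : ℕ, ∀ {ι : Type} [Fintype ι]
    [DecidableEq ι] {V : ι → Type} [∀ i, Fintype (V i)] [∀ i, DecidableEq (V i)]
    {w w2 : ∀ i, V i → ℝ} {red : ℤ → ∀ i, V i} {J : Type} [Fintype J] [DecidableEq J]
    {m d ns : ℕ} {ty : ι → J} {sn : J → ℕ} {rho ℓ L Aw α lamf : ι → ℝ} {a del Λ g1 lm : ℝ}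
    {r : J → ℝ} {Rs : ℕ → ℝ} {kk : ℕ} {κ : ℕ → ℝ}
    -- the level inequality
    {tyP : ℕ → Prop} [DecidablePred tyP] {Pr : Finset ℕ} {kw : ℕ → ℕ → ℝ} {R : ℕ → ℝ}
    {tyN : ℕ → J} {ell X : J → ℝ} {M2 : Finset ℕ} {g0 N Y M : ℕ}
    {A τ Θ σ M0 δ c4 s gn G0 : ℝ} {S : Finset ℤ} {y0 : ℤ} {f : ℤ → ℝ},
    1 ≤ m → (∀ i, s1 ≤ sn (ty i)) → (∀ i a, 0 ≤ w i a) → (∀ i, ∑ a, w i a = 1) →
    H258.F1Num m b γ ρ g1 Λ sn ty rho (fun i => Real.exp (α i + Aw i)) ℓ r Rs ns kk d →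
    (∀ i, 0 ≤ rho i) → (∀ j, 0 ≤ r j) → 0 ≤ lm → (∀ i, ℓ i ≤ lm) → 4 * (d * lm) ≤ Λ →
    LVNum tyP Pr kw R tyN ell (fun j => X j * r j) M2 g0 N Y M A τ Θ σ M0 δ c4 s gn →
    S ⊆ Ioc y0 (y0 + M) → (∀ n ∈ S, 0 ≤ f n) → (∀ n ∈ S, f n ≠ 0 → W w (red n) ≠ 0) →
    (∀ (T : Finset ι) (x : ∀ i, V i), T.card ≤ d → (∀ i ∈ T, w i (x i) ≠ 0) →
      ∀ n ∈ S, (M : ℝ) * (f n * ∏ i ∈ T, (w i (x i))⁻¹) ≤ A) →
    0 ≤ G0 → (∀ q : ℕ, 1 ≤ q → 0 < κ q) →
    (∀ q : ℕ, 1 ≤ q → κ q * (q : ℝ) ^ (3 / (m : ℝ)) ≤ G0 * (q : ℝ) ^ τ) →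
    (∀ q : ℕ, 1 ≤ q → (q : ℝ) ≤ M0 * Real.exp (Θ / 2) → (∀ p ∈ q.primeFactors, p ∈ Pr) →
      ∀ z : ℕ, z < q → ∑ n ∈ S, fcl f q z n ≠ 0 →
        ThickG b γ A0 w w2 (lawc red S (fcl f q z)) (fun i => sn (ty i)) ns ℓ Λ L Aw α lamf a del
          (q * ∑ n ∈ S, fcl f q z n) (κ q)) →
    SideIn m d w red (fun i => r (ty i) * rho i) (fun i => Real.exp (α i + Aw i)) M2
      (fun m2 => omR tyP R m2 * kapProd kw m2) (288 * (G0 ^ 2 + 1) * Real.exp 1) gn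
      (32 * Real.exp (2 * a + η)) (∑ j, X j * r j)
      (∑ j, Real.exp (19 * γ * sn j) * (16 * m + 64) ^ 2 * r j ^ 2) S f := by
  obtain ⟨s1, hs1⟩ := H635.hE_side hb hγ hρ hA0 hη hη1
  refine ⟨s1, ?_⟩
  intro ι _ _ V _ _ w w2 red J _ _ m d ns ty sn rho ℓ L Aw α lamf a del Λ g1 lm r Rs kk κ tyP _ Pr
    kw R tyN ell X M2 g0 N Y M A τ Θ σ M0 δ c4 s gn G0 S y0 f hm hsc h0 h1 F1 hrho hr hlm hℓ hΛ H hS
    hf0 hw hsup hG0 hκ hκτ hT
  have hm1 : (1 : ℝ) ≤ m := by exact_mod_cast hm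
  obtain ⟨c, hc⟩ : ∃ c : ι → ℝ, c = fun i => Real.exp (α i + Aw i) := ⟨_, rfl⟩
  have hc0 : ∀ i, 0 ≤ c i := fun i => by rw [hc]; exact (Real.exp_pos _).le
  -- the family of top pins
  set QT : Finset ℕ := (Icc 1 ⌊M0 * Real.exp (Θ / 2)⌋₊).filter
    (fun q => ∀ p ∈ q.primeFactors, p ∈ Pr) with hQT
  have hQT1 : ∀ q ∈ QT, 1 ≤ q := fun q hq => (mem_Icc.1 (mem_filter.1 hq).1).1
  have hQT2 : ∀ q ∈ QT, (q : ℝ) ≤ M0 * Real.exp (Θ / 2) := by
    intro q hq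
    have h2 := (mem_Icc.1 (mem_filter.1 hq).1).2
    exact (Nat.le_floor_iff' (by have := hQT1 q hq; omega)).1 h2
  refine ⟨(Σ _ : ℕ, ℕ), QT.sigma (fun q => range q),
    fun sg x => (sg.1 : ℝ) * pF w red S (fcl f sg.1 sg.2) x,
    fun sg => 16 * Real.exp (2 * a + η) * κ sg.1 ^ 2,
    fun sg => κ sg.1 * (sg.1 : ℝ) ^ (3 / (m : ℝ)), ?_, ?_, ?_, ?_, ?_⟩
  · intro sg hsg
    rw [mem_sigma] at hsg
    have h2 := hQT1 _ hsg.1
    have h3 : (0 : ℝ) < sg.1 := by exact_mod_cast h2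
    exact mul_pos (hκ _ h2) (Real.rpow_pos_of_pos h3 _)
  · intro sg _
    positivity
  · -- the union bound
    have h2 := H635.U_sum m hm (16 * Real.exp (2 * a + η)) (by positivity) QT hQT1 κ
      fun q hq => hκ q (hQT1 q hq)
    have h3 : (0 : ℝ) ≤ ∑ sg ∈ QT.sigma (fun q => range q),
      ((16 * Real.exp (2 * a + η) * κ sg.1 ^ 2) /
        (κ sg.1 * (sg.1 : ℝ) ^ (3 / (m : ℝ))) ^ 2) ^ m :=
      sum_nonneg fun sg _ => pow_nonneg (div_nonneg (by positivity) (sq_nonneg _)) _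
    have h4 := pow_le_pow_left₀ (Real.rpow_nonneg h3 _) h2 m
    rw [Real.rpow_inv_natCast_pow h3 (by omega)] at h4
    refine h4.trans (le_of_eq ?_)
    congr 1
    ring
  · -- the second moments
    intro sg hsg T u hTd _
    rw [mem_sigma, mem_range] at hsg
    have hq := hQT1 _ hsg.1
    have e2 : ∀ i, (8 * (m : ℝ) + 32) * (2 * (r (ty i) * rho i)) =
        (8 * m + 32) * (2 * rho i * r (ty i)) := fun i => by ring
    have hσ0 : ∀ i, 0 ≤ (8 * (m : ℝ) + 32) * (2 * (r (ty i) * rho i)) := fun i =>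
      mul_nonneg (by positivity) (mul_nonneg zero_le_two (mul_nonneg (hr _) (hrho i)))
    have hd2 : (d : ℝ) + 2 * ∑ i, (8 * (m : ℝ) + 32) * (2 * (r (ty i) * rho i)) ≤
        ((2 * d : ℕ) : ℝ) := by
      have h3 : ∀ i, (8 * (m : ℝ) + 32) * (2 * (r (ty i) * rho i)) ≤
          (8 * m * (1 + Real.exp (α i + Aw i))) ^ 2 * (2 * rho i * r (ty i)) := by
        intro i
        rw [e2]
        refine mul_le_mul_of_nonneg_right ?_ (F1.s0 i)
        have h4 : 8 * (m : ℝ) ≤ 8 * m * (1 + Real.exp (α i + Aw i)) := by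
          have := Real.exp_pos (α i + Aw i)
          nlinarith
        have h5 : (8 * (m : ℝ)) ^ 2 ≤ (8 * m * (1 + Real.exp (α i + Aw i))) ^ 2 :=
          pow_le_pow_left₀ (by positivity) h4 2
        nlinarith
      have h6 := F1.hd
      have h7 : ∑ i, (8 * (m : ℝ) + 32) * (2 * (r (ty i) * rho i)) ≤
          ∑ i, (8 * m * (1 + Real.exp (α i + Aw i))) ^ 2 * (2 * rho i * r (ty i)) :=
        sum_le_sum fun i _ => h3 i
      have h8 : (0 : ℝ) ≤ kk := Nat.cast_nonneg _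
      push_cast
      linarith
    have h9 := hs1 (w := w) (w2 := w2) (sc := fun i => sn (ty i)) (ns := ns) (ℓ := ℓ) (Λ := Λ)
      (L := L) (A := Aw) (α := α) (lamf := lamf) (a := a) (del := del) (κ := κ sg.1) (red := red)
      (S := S) (g := fcl f sg.1 sg.2) (q := (sg.1 : ℝ))
      (hT sg.1 hq (hQT2 _ hsg.1) (mem_filter.1 hsg.1).2 sg.2 hsg.2)
      (fun n hn => by
        unfold fcl
        split_ifs
        · exact hf0 n hn
        · exact le_rfl) hsc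
      (σ := fun i => (8 * (m : ℝ) + 32) * (2 * (r (ty i) * rho i))) (r := Rs) hσ0 F1.R0 F1.Rρ
      (fun i => by rw [e2]; exact F1.Rσ i)
      (by simp only [e2]; exact F1.cap) d (2 * d) lm hlm hℓ
      (by push_cast; linarith) hd2 T u hTd
    refine h9.trans ?_
    refine mul_le_mul_of_nonneg_left ?_ (sq_nonneg _)
    have e3 : 16 * (κ sg.1 * Real.exp a) ^ 2 * Real.exp (η + ∑ j ∈ range ns,
        Real.exp (19 * γ * j) * Rs j ^ 2) = 16 * Real.exp (2 * a + η) * κ sg.1 ^ 2 *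
          Real.exp (∑ j ∈ range ns, Real.exp (19 * γ * j) * Rs j ^ 2) := by
      rw [Real.exp_add η, Real.exp_add (2 * a), two_mul a, Real.exp_add a]
      ring
    rw [e3]
    exact mul_le_mul_of_nonneg_left (Real.exp_le_exp.2 F1.Rsum) (by positivity)
  · -- the level inequality
    intro T x hTd hx Amp hAmp hAs
    have hx0 : ∀ i ∈ T, 0 < w i (x i) := fun i hi => lt_of_le_of_ne (h0 _ _) (Ne.symm (hx i hi))
    have hx1 : ∀ i ∈ T, w i (x i) ≤ 1 := fun i _ => by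
      rw [← h1 i]
      exact single_le_sum (f := fun a => w i a) (fun a _ => h0 i a) (mem_univ _)
    have hu : ∀ i, 1 ≤ 8 * (m : ℝ) * (1 + Real.exp (α i + Aw i)) := fun i => by
      have := Real.exp_pos (α i + Aw i)
      nlinarith
    have h2 := H892.LV H hS hf0 hw h0 (q := fun i => 1 / (8 * (m : ℝ) *
      (1 + Real.exp (α i + Aw i)))) (fun i => by have := hu i; positivity)
      (fun i => by
        rw [div_le_one (by have := hu i; linarith)]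
        exact hu i) hx0 hx1 (hsup T x hTd hx) hAmp hG0 ?_
    · refine h2.trans (le_of_eq ?_)
      rw [Real.exp_add]
      ring
    · intro q hq hqM hqP z hz
      have hmem : (⟨q, z⟩ : (Σ _ : ℕ, ℕ)) ∈ QT.sigma (fun q => range q) := by
        rw [mem_sigma, mem_range]
        refine ⟨mem_filter.2 ⟨mem_Icc.2 ⟨hq, ?_⟩, hqP⟩, hz⟩
        exact Nat.le_floor hqM
      have h3 := hAs _ hmem
      have h4 : (fun x' => (q : ℝ) * pF w red S (fcl f q z) x') = pF w red S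
          (fun n => if n ≡ z [ZMOD (q : ℕ)] then (q : ℝ) * f n else 0) := by
        funext x'
        unfold H944.pF
        rw [← mul_div_assoc, mul_sum]
        congr 1
        refine sum_congr rfl fun n _ => ?_
        show (q : ℝ) * (if n ≡ (z : ℤ) [ZMOD (q : ℤ)] then f n else 0) =
          if n ≡ (z : ℤ) [ZMOD (q : ℤ)] then (q : ℝ) * f n else 0
        split_ifs
        · rfl
        · rw [mul_zero]
      rw [← h4]
      refine h3.trans (mul_le_mul_of_nonneg_left (hκτ q hq) hAmp)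

end

end Vale.Agent.P042.H121
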