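import Vale.Agent.P042.H635.F1Sk
import Vale.Agent.P042.H892.LVI
import Vale.Agent.P042.H168.F1Inst

set_option autoImplicit false

/-!
P042, power regime: the numbers of `H635.F1Par` except the scale sums (`num`, `e`), at one
instance of the state, and the numbers `G0`, `be`, `ga` of the law slots.
-/

namespace Vale.Agent.P042.H121

open Finset
open Vale.Agent.P042.H892 (g0c)
open Vale.Agent.P042.H739 (Tst Wst)
open Vale.Agent.P042.H860 (Inst Ok Si lo)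
open Vale.Agent.P042.H883 (JT snT ellT scT)
open Vale.Agent.P042.H635 (Lo qL scL m0I M0I PrI F1Par)

/-- the absolute constant of (F1) -/
noncomputable def C2v : ℝ := Real.log (4 * (288 * ((2 * Real.exp 1) ^ 2 + 1) * Real.exp 1) *
  (32 * Real.exp (2 * 0 + 1) + 1))

theorem exp_C2v : Real.exp C2v = 4 * (288 * ((2 * Real.exp 1) ^ 2 + 1) * Real.exp 1) *
    (32 * Real.exp (2 * 0 + 1) + 1) := by
  unfold C2v
  exact Real.exp_log (by positivity)

theorem C2v_nonneg : 0 ≤ C2v := by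
  unfold C2v
  refine Real.log_nonneg ?_
  have h1 : (1 : ℝ) ≤ Real.exp 1 := Real.one_le_exp zero_le_one
  have h2 : (1 : ℝ) ≤ Real.exp (2 * 0 + 1) := Real.one_le_exp (by norm_num)
  have h3 : (1 : ℝ) ≤ (2 * Real.exp 1) ^ 2 + 1 := by nlinarith [sq_nonneg (2 * Real.exp 1)]
  have h4 : (1 : ℝ) ≤ 288 * ((2 * Real.exp 1) ^ 2 + 1) * Real.exp 1 := by nlinarith
  nlinarith

/-- the exponent `τ = σ` -/
noncomputable def tauv (g c : ℝ) : ℝ := min g (1 / (32 * g0c c))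

/-- the moment -/
noncomputable def mv (τ : ℝ) : ℕ := ⌈6 / τ⌉₊

/-- the length of the pins -/
noncomputable def dI (θ : ℝ) (I : Inst) : ℕ := ⌊2 * θ * I.P / Real.log I.P⌋₊

/-- the sup of the weights -/
noncomputable def A1I (θ kp gs : ℝ) (I : Inst) : ℝ :=
  2 * I.q0 * Real.exp (Real.log 2 + 32 * (kp * I.P / 64) +
    dI θ I * ((1 + gs) * (3 * Real.log I.P) + Real.log 4))

theorem tauv_pos {g c : ℝ} (hg : 0 < g) (hc : 0 < c) (hc1 : c ≤ 1 / 4) : 0 < tauv g c := by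
  have h1 := H892.g0c_64 hc hc1
  unfold tauv
  exact lt_min hg (by positivity)

theorem tauv_le {g c : ℝ} : tauv g c ≤ g := min_le_left _ _

theorem tauv_g0c {g c : ℝ} (hc : 0 < c) (hc1 : c ≤ 1 / 4) : tauv g c * g0c c ≤ 1 / 32 := by
  have h1 := H892.g0c_64 hc hc1
  have h2 : tauv g c ≤ 1 / (32 * g0c c) := min_le_right _ _
  have h3 : (0 : ℝ) < g0c c := by linarith
  calc tauv g c * g0c c ≤ 1 / (32 * g0c c) * g0c c := mul_le_mul_of_nonneg_right h2 h3.le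
    _ = 1 / 32 := by field_simp

theorem mv_pos {τ : ℝ} (h : 0 < τ) : 1 ≤ mv τ := Nat.one_le_ceil_iff.2 (by positivity)

theorem mv_le {τ : ℝ} (h : 0 < τ) : 3 / (mv τ : ℝ) ≤ τ / 2 := by
  have h1 : 6 / τ ≤ mv τ := Nat.le_ceil _
  have h2 : (0 : ℝ) < mv τ := lt_of_lt_of_le (by positivity) h1
  rw [div_le_iff₀ h] at h1
  rw [div_le_iff₀ h2]
  linarith

/-- `be` is small against `τ - 3 / m` -/
theorem be_room {τ be : ℝ} (h : 0 < τ) (hb : be ≤ τ / 4) :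
    be ≤ τ - 3 / (mv τ : ℝ) ∧ τ / 4 ≤ τ - 3 / (mv τ : ℝ) - be := by
  have h1 := mv_le h
  constructor <;> linarith

/-- logarithm of the sup of the weights -/
theorem log_A1 {I : Inst} {θ kp gs : ℝ} {Q : ℕ} (hq : 1 ≤ I.q0) (hQ : I.q0 ≤ Q) (hθ : 0 ≤ θ)
    (hgs : gs ≤ 1) (hP : Real.exp 1 ≤ I.P) :
    Real.log (A1I θ kp gs I) ≤ 2 * Real.log 2 + Real.log Q + kp / 2 * I.P + 15 * θ * I.P := by
  have hq0 : (0 : ℝ) < I.q0 := by exact_mod_cast hq
  have hP0 : 0 < I.P := lt_of_lt_of_le (Real.exp_pos 1) hP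
  have hl1 : 1 ≤ Real.log I.P := by
    rw [Real.le_log_iff_exp_le hP0]
    exact hP
  have hl0 : 0 < Real.log I.P := by linarith
  unfold A1I
  rw [Real.log_mul (by positivity) (Real.exp_pos _).ne', Real.log_exp,
    Real.log_mul (by norm_num) hq0.ne']
  have h1 : Real.log I.q0 ≤ Real.log Q := Real.log_le_log hq0 (by exact_mod_cast hQ)
  have h2 : (dI θ I : ℝ) ≤ 2 * θ * I.P / Real.log I.P := Nat.floor_le (by positivity)
  have h4 : Real.log 4 ≤ 1.5 := by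
    have h5 : (4 : ℝ) = 2 ^ (2 : ℕ) := by norm_num
    rw [h5, Real.log_pow]
    have := Real.log_two_lt_d9
    push_cast
    linarith
  have h40 : 0 ≤ Real.log 4 := Real.log_nonneg (by norm_num)
  have h6 : (1 + gs) * (3 * Real.log I.P) + Real.log 4 ≤ 7.5 * Real.log I.P := by nlinarith
  have h7 : (dI θ I : ℝ) * ((1 + gs) * (3 * Real.log I.P) + Real.log 4) ≤ 15 * θ * I.P := by
    calc (dI θ I : ℝ) * ((1 + gs) * (3 * Real.log I.P) + Real.log 4)
        ≤ dI θ I * (7.5 * Real.log I.P) := mul_le_mul_of_nonneg_left h6 (Nat.cast_nonneg _)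
      _ ≤ 2 * θ * I.P / Real.log I.P * (7.5 * Real.log I.P) :=
          mul_le_mul_of_nonneg_right h2 (by positivity)
      _ = 15 * θ * I.P := by
          field_simp
          ring
  have h8 : 32 * (kp * I.P / 64) = kp / 2 * I.P := by ring
  rw [h8]
  linarith

theorem one_le_A1 {I : Inst} {θ kp gs : ℝ} (hq : 1 ≤ I.q0) (hkp : 0 ≤ kp) (hgs : 0 ≤ gs)
    (hP : 1 ≤ I.P) : 1 ≤ A1I θ kp gs I := by
  have hq0 : (1 : ℝ) ≤ I.q0 := by exact_mod_cast hq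
  have hl : 0 ≤ Real.log I.P := Real.log_nonneg hP
  unfold A1I
  have h1 : 1 ≤ Real.exp (Real.log 2 + 32 * (kp * I.P / 64) +
      dI θ I * ((1 + gs) * (3 * Real.log I.P) + Real.log 4)) := by
    refine Real.one_le_exp ?_
    have h2 : 0 ≤ Real.log 2 := Real.log_nonneg (by norm_num)
    have h3 : 0 ≤ Real.log 4 := Real.log_nonneg (by norm_num)
    positivity
  nlinarith

/-- the condition on `σ Θ` -/
theorem sig_A1 {s P kp κ θ lA lQ : ℝ} (hs0 : 0 < s) (hP : 0 < P) (hkp1 : kp ≤ κ)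
    (hκ : 200 * κ ≤ s) (hθ2 : 100 * θ ≤ s) (hPQ : (4 + 2 * lQ) / (s / 2) ≤ P)
    (h1 : lA ≤ 2 * Real.log 2 + lQ + kp / 2 * P + 15 * θ * P) : 2 * lA ≤ s * P := by
  rw [div_le_iff₀ (by positivity)] at hPQ
  have h3 := Real.log_two_lt_d9
  have h4 : kp * P ≤ s / 200 * P := mul_le_mul_of_nonneg_right (by linarith) hP.le
  have h5 : θ * P ≤ s / 100 * P := mul_le_mul_of_nonneg_right (by linarith) hP.le
  have h6 : 0 < s * P := by positivity
  have e1 : 15 * θ * P = 15 * (θ * P) := by ring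
  have e2 : kp / 2 * P = (kp * P) / 2 := by ring
  have e3 : s / 200 * P = (s * P) / 200 := by ring
  have e4 : s / 100 * P = (s * P) / 100 := by ring
  have e5 : P * (s / 2) = (s * P) / 2 := by ring
  rw [e1, e2] at h1
  rw [e3] at h4
  rw [e4] at h5
  rw [e5] at hPQ
  linarith

theorem exp_five : (100 : ℝ) ≤ Real.exp 5 := by
  have h6 : (2.7 : ℝ) ≤ Real.exp 1 := by linarith [Real.exp_one_gt_d9]
  calc (100 : ℝ) ≤ 2.7 ^ 5 := by norm_num
    _ ≤ Real.exp 1 ^ 5 := pow_le_pow_left₀ (by norm_num) h6 5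
    _ = Real.exp 5 := by rw [← Real.exp_nat_mul]; norm_num

/-- the top moduli are small against the window -/
theorem cap_num {P κ θ M N h0 Θ : ℝ} (hP : 10 ≤ P) (hκ : κ ≤ 1 / 200) (hθ : θ ≤ 1 / 100)
    (hΘ : Θ ≤ P / 128) (hM : M ≤ Real.exp (θ * P)) (h1 : Real.exp ((1 - κ) * P) ≤ N)
    (h2 : N ≤ 100 * h0) : M * Real.exp (5 * Θ) ≤ h0 := by
  have h3 : M * Real.exp (5 * Θ) ≤ Real.exp (θ * P + 5 * (P / 128)) := by
    rw [Real.exp_add]
    exact mul_le_mul hM (Real.exp_le_exp.2 (by linarith)) (Real.exp_pos _).le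
      (Real.exp_pos _).le
  have h4 : (100 : ℝ) ≤ Real.exp (P / 2) :=
    exp_five.trans (Real.exp_le_exp.2 (by linarith))
  have h7 : Real.exp (θ * P + 5 * (P / 128)) * 100 ≤ Real.exp ((1 - κ) * P) := by
    calc Real.exp (θ * P + 5 * (P / 128)) * 100
        ≤ Real.exp (θ * P + 5 * (P / 128)) * Real.exp (P / 2) :=
          mul_le_mul_of_nonneg_left h4 (Real.exp_pos _).le
      _ = Real.exp (θ * P + 5 * (P / 128) + P / 2) := by rw [← Real.exp_add]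
      _ ≤ Real.exp ((1 - κ) * P) := by
          refine Real.exp_le_exp.2 ?_
          have h8 : κ * P ≤ 1 / 200 * P := mul_le_mul_of_nonneg_right hκ (by linarith)
          have h9 : θ * P ≤ 1 / 100 * P := mul_le_mul_of_nonneg_right hθ (by linarith)
          have e1 : (1 - κ) * P = P - κ * P := by ring
          rw [e1]
          linarith
  have h9 : Real.exp (θ * P + 5 * (P / 128)) ≤ h0 := by linarith
  exact h3.trans h9

/-- the logarithms of the low sites -/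
theorem log_site {I : Inst} {kap : ℝ} (hP : 1 ≤ I.P) (hkap : 0 ≤ kap) (i : Lo I kap) :
    Real.log (qL I kap i) ≤ 3 * Real.log I.P := by
  have hP0 : 0 < I.P := by linarith
  have hl0 : 0 ≤ Real.log I.P := Real.log_nonneg hP
  have h1 := (H739.mem_Wst hP0.le).1 i.2
  have hp0 : (0 : ℝ) < qL I kap i := by
    have : 0 < qL I kap i := h1.1.pos
    exact_mod_cast this
  have h2 : Real.log (qL I kap i) ≤ (2 - kap) * Real.log I.P := by
    rw [← Real.log_rpow hP0]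
    exact Real.log_le_log hp0 h1.2.2
  nlinarith

theorem pin_len {I : Inst} {θ : ℝ} (hP : Real.exp 1 ≤ I.P) (hθ : 0 ≤ θ) :
    4 * ((dI θ I : ℝ) * (3 * Real.log I.P)) ≤ 24 * θ * I.P := by
  have hP0 : 0 < I.P := lt_of_lt_of_le (Real.exp_pos 1) hP
  have hl1 : 1 ≤ Real.log I.P := by
    rw [Real.le_log_iff_exp_le hP0]
    exact hP
  have hl0 : 0 < Real.log I.P := by linarith
  have hd : (dI θ I : ℝ) ≤ 2 * θ * I.P / Real.log I.P := Nat.floor_le (by positivity)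
  calc 4 * ((dI θ I : ℝ) * (3 * Real.log I.P))
      ≤ 4 * (2 * θ * I.P / Real.log I.P * (3 * Real.log I.P)) := by
        refine mul_le_mul_of_nonneg_left ?_ (by norm_num)
        exact mul_le_mul_of_nonneg_right hd (by positivity)
    _ = 24 * θ * I.P := by
        field_simp
        ring

theorem M0I_facts {I : Inst} {θ : ℝ} (hP : 0 ≤ I.P) (hθ : 0 ≤ θ) :
    1 ≤ M0I I θ ∧ (M0I I θ : ℝ) ≤ Real.exp (θ * I.P) ∧ Real.log (M0I I θ) ≤ θ * I.P := by
  have hM0 : (M0I I θ : ℝ) ≤ Real.exp (θ * I.P) := Nat.floor_le (Real.exp_pos _).le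
  have hM01 : 1 ≤ M0I I θ := by
    unfold H635.M0I
    rw [Nat.one_le_floor_iff]
    exact Real.one_le_exp (by positivity)
  have hM00 : (0 : ℝ) < M0I I θ := by exact_mod_cast hM01
  refine ⟨hM01, hM0, ?_⟩
  rw [Real.log_le_iff_le_exp hM00]
  exact hM0

/-- **the numbers of one instance** -/
theorem f1par_of (k : ℕ) (hk : 2 ≤ k) {c : ℝ} (hc : 0 < c) (hc1 : c ≤ 1 / 4) {g : ℝ}
    (hg : 0 < g) {kap : ℝ} (hkap : 0 < kap) (hkap1 : kap ≤ 8 * g) (hkap2 : kap ≤ 1) {δ0 : ℝ}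
    (hδ0 : 0 < δ0) {c4 : ℝ} (hc4 : 0 ≤ c4) (hc41 : c4 * g0c c ≤ 1 / 16) {θ : ℝ} (hθ : 0 < θ)
    (hθ1 : 4 * g0c c * θ ≤ 1 / (64 * k)) (hθ2 : 100 * θ ≤ tauv g c * (1 / (64 * k))) {κ : ℝ}
    (hκ : 200 * κ ≤ tauv g c * (1 / (64 * k))) {kp gs : ℝ} (hkp : 0 ≤ kp)
    (hkp1 : kp ≤ κ) (hgs : 0 ≤ gs) (hgs1 : gs ≤ 1) (Q : ℕ) :
    ∃ P0 : ℝ, ∀ I : Inst, P0 ≤ I.P → I.k = k → 4 ≤ I.C1 → Ok I κ → I.q0 ≤ Q →
    ∀ {G0 : ℝ}, 0 ≤ G0 → G0 ≤ 2 * Real.exp 1 →
    ∀ {cr β' γ ρ : ℝ} {ns : ℕ} {rho e : Lo I kap → ℝ},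
    (∀ j : JT I.K0 I.C1 I.P, 2 * ∑ i : Lo I kap, (if scT i.1 = j then e i else 0) ≤
      Real.exp (8 * g * ellT j) / 4) →
    (∀ b0 : ℕ, (b0 : ℝ) ≤ 2 * I.P ^ β' → ∀ r : JT I.K0 I.C1 I.P → ℝ, (∀ j, 0 ≤ r j) →
      (∀ j, r j ≤ min (Real.exp (cr * ellT j)) ((b0 : ℝ) ^ cr)) →
      ∃ Rs : ℕ → ℝ, H258.F1Num (mv (tauv g c)) (Real.log 2) γ ρ (8 * g) (24 * θ * I.P) snT
        (fun i : Lo I kap => scT i.1) rho (fun i => Real.exp (γ * scL I kap i))
        (fun i => Real.log (qL I kap i)) r Rs ns (m0I I θ) (dI θ I)) →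
    F1Par I kap θ c cr (8 * g) C2v c4 δ0 β' γ ρ 1 (mv (tauv g c)) (dI θ I) ns (24 * θ * I.P)
      (3 * Real.log I.P) (tauv g c) (tauv g c) (I.P / (64 * k)) (A1I θ kp gs I)
      G0 0 rho e := by
  have hτ := tauv_pos hg hc hc1
  have hτg := tauv_g0c (g := g) hc hc1
  have hg64 := H892.g0c_64 hc hc1
  have hk0 : (2 : ℝ) ≤ k := by exact_mod_cast hk
  obtain ⟨s, hs⟩ : ∃ s, s = tauv g c * (1 / (64 * (k : ℝ))) := ⟨_, rfl⟩
  have hs0 : 0 < s := by rw [hs]; positivity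
  rw [← hs] at hθ2 hκ
  have hτ1 : tauv g c ≤ 1 / 2048 := by
    have h1 : tauv g c * 64 ≤ 1 / 32 :=
      (mul_le_mul_of_nonneg_left hg64 hτ.le).trans hτg
    linarith
  have hk64 : 1 / (64 * (k : ℝ)) ≤ 1 / 128 := by
    apply one_div_le_one_div_of_le (by norm_num)
    linarith
  have hs1 : s ≤ 1 := by
    rw [hs]
    have h2 : (0 : ℝ) < 1 / (64 * (k : ℝ)) := by positivity
    nlinarith
  obtain ⟨PX, hPX1, hX⟩ := H892.X_I k (Γ := 8 * g) (by positivity)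
  obtain ⟨P1, hP1⟩ := Filter.eventually_atTop.1 ((tendsto_rpow_neg_atTop (y := 1 / 8)
    (by norm_num)).eventually (eventually_le_nhds hδ0))
  refine ⟨max (max PX P1) (max 10 ((4 + 2 * Real.log Q) / (s / 2))), ?_⟩
  intro I hP hIk hC1 hok hQ G0 hG0 hG01 cr β' γ ρ ns rho e he hnum
  have hC2 : 4 * (288 * (G0 ^ 2 + 1) * Real.exp 1) * (32 * Real.exp (2 * 0 + 1) + 1) ≤
      Real.exp C2v := by
    rw [exp_C2v]
    have h1 : G0 ^ 2 ≤ (2 * Real.exp 1) ^ 2 := pow_le_pow_left₀ hG0 hG01 2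
    have h2 : 288 * (G0 ^ 2 + 1) * Real.exp 1 ≤
        288 * ((2 * Real.exp 1) ^ 2 + 1) * Real.exp 1 :=
      mul_le_mul_of_nonneg_right (by linarith) (Real.exp_pos 1).le
    exact mul_le_mul_of_nonneg_right (by linarith) (by positivity)
  have hPX : PX ≤ I.P := ((le_max_left _ _).trans (le_max_left _ _)).trans hP
  have hPP1 : P1 ≤ I.P := ((le_max_right _ _).trans (le_max_left _ _)).trans hP
  have hP10 : 10 ≤ I.P := ((le_max_left _ _).trans (le_max_right _ _)).trans hP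
  have hPQ : (4 + 2 * Real.log Q) / (s / 2) ≤ I.P :=
    ((le_max_right _ _).trans (le_max_right _ _)).trans hP
  have hP0 : 0 < I.P := by linarith
  have hPe : Real.exp 1 ≤ I.P := by
    have := Real.exp_one_lt_d9
    linarith
  have hl0 : 0 ≤ Real.log I.P := Real.log_nonneg (by linarith)
  have hq := hok.q0_pos
  have hΘ : I.P / (64 * k) ≤ I.P / 128 := by
    rw [div_eq_mul_one_div, div_eq_mul_one_div I.P 128]
    exact mul_le_mul_of_nonneg_left hk64 hP0.le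
  have hΘ0 : 0 ≤ I.P / (64 * (k : ℝ)) := by positivity
  have hΘP : I.P / (64 * k) ≤ I.P := by linarith
  obtain ⟨hM01, hM0, hlM⟩ := M0I_facts (I := I) hP0.le hθ.le
  have hσA : 2 * Real.log (A1I θ kp gs I) ≤ tauv g c * (I.P / (64 * k)) := by
    have h2 : tauv g c * (I.P / (64 * k)) = s * I.P := by
      rw [hs]
      ring
    rw [h2]
    exact sig_A1 hs0 hP0 hkp1 hκ hθ2 hPQ (log_A1 hq hQ hθ.le hgs1 hPe)
  have hM0Θ : 4 * (g0c c : ℝ) * Real.log (M0I I θ) ≤ I.P / (64 * k) := by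
    have h1 : 4 * (g0c c : ℝ) * Real.log (M0I I θ) ≤ 4 * g0c c * (θ * I.P) :=
      mul_le_mul_of_nonneg_left hlM (by positivity)
    have h2 : 4 * (g0c c : ℝ) * θ * I.P ≤ 1 / (64 * k) * I.P :=
      mul_le_mul_of_nonneg_right hθ1 hP0.le
    calc 4 * (g0c c : ℝ) * Real.log (M0I I θ) ≤ 4 * g0c c * (θ * I.P) := h1
      _ = 4 * (g0c c : ℝ) * θ * I.P := by ring
      _ ≤ 1 / (64 * k) * I.P := h2
      _ = I.P / (64 * k) := by ring
  have hcap : (M0I I θ : ℝ) * Real.exp (5 * (I.P / (64 * k))) ≤ I.h0 :=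
    cap_num hP10 (by linarith) (by linarith) hΘ hM0 hok.base.lo (by exact_mod_cast hok.hN)
  have hXX : ∀ j : JT I.K0 I.C1 I.P,
      H892.XU (lo I kap) (scT : Si I.K0 I.C1 I.P → JT I.K0 I.C1 I.P) I.k (I.P / (64 * k))
        (tauv g c) (tauv g c) ellT j ≤ Real.exp (8 * g * ellT j) / 4 := by
    intro j
    rw [hIk]
    have h1 := tauv_le (g := g) (c := c)
    exact hX I hPX hkap1 hkap2 hΘ0 hΘP (by linarith) (by linarith) j
  exact ⟨mv_pos hτ, hc, hc1, hC1, by positivity, log_site (by linarith) hkap.le,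
    pin_len hPe hθ.le, one_le_A1 hq hkp hgs (by linarith), hτ.le, hτg, hΘ0, hΘP, hτ.le, hτg, hσA,
    hc4, hc41, hM01, hM0Θ, hcap, hG0, hC2, hP1 I.P hPP1, hXX, he, hnum⟩

/-- **the constant `G0`** -/
theorem G0_le {q : H362.FP} {W : Finset ℕ} {f : Polynomial ℤ} {N : ℕ} {G : ℤ → ℝ} {mu : ℕ → ℝ}
    {Dm Lq : ℝ} {q0 : ℕ} {w : ZMod q0} {z h0 : ℕ} (h : H168.CellSt q W f N G mu Dm Lq q0 w z h0)
    (hbe : 0 ≤ q.be) {B : ℕ} (hB : q0 ≤ B) (h1 : q.be * (Real.log B + 6) ≤ 1) (h0' : 1 ≤ q0) :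
    H168.G0c q N h0 q0 ≤ 2 * Real.exp 1 := by
  refine (H168.G0c_le h hbe).trans ?_
  have h2 : Real.log q0 ≤ Real.log B :=
    Real.log_le_log (by exact_mod_cast h0') (by exact_mod_cast hB)
  rw [Real.exp_add, Real.exp_log (by norm_num), mul_comm]
  refine mul_le_mul_of_nonneg_left (Real.exp_le_exp.2 ?_) (by norm_num)
  refine le_trans (mul_le_mul_of_nonneg_left (by linarith) hbe) h1

end Vale.Agent.P042.H121
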